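import Vale.Agent.P032W.H892.SixFst
import Vale.Agent.P032W.H820.Hull

/-!
# P032: cells of the sums of two points of a circle

`Xs2 z s t = pt z s + pt z t - z`.  The cell `(-1, 0) x (0, 1)` (angles in units of 60 degrees, relative to a base
direction) and its two parts `Ap`, `Am` of the points at distance `> 1` from one of the two side corners.

* `mono_col` : a connected set of points of a region with a list of two colours, each with a unit partner in the
  region, has one colour,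
* `ap_pre`, `am_pre` : the two parts are connected; `exists_unit_pair` : they contain points at distance one.
-/

open Set Filter Topology Metric

noncomputable section

namespace Vale.Agent.P032.H892

open Vale.Agent.P032.Six Vale.Agent.P032.Words Vale.Agent.P032.S5.H767

variable {U : Fin 6 → Set ℂ} {T : ℂ → Set (Fin 6)} {z : ℂ}

theorem pure_open (h : Irr U T) (i : Fin 6) : IsOpen {x | T x = {i}} := by
  rw [isOpen_iff_mem_nhds]
  intro x hx
  have hx : T x = {i} := hx
  filter_upwards [h.nhd x] with y hy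
  rw [hx] at hy
  obtain ⟨l, hl⟩ := h.ne y
  have : l = i := hy hl
  subst this
  exact Subset.antisymm hy (singleton_subset_iff.2 hl)

/-- **One colour** on a connected set of points with unit partners -/
theorem mono_col (h : Irr U T) {i j : Fin 6} {A K : Set (ℝ × ℝ)} {X : ℝ × ℝ → ℂ} (hX : Continuous X)
    (hA : IsPreconnected A) (hAK : A ⊆ K) (hK : ∀ p ∈ K, T (X p) ⊆ {i, j})
    (hpart : ∀ p ∈ A, ∃ q ∈ K, dist (X p) (X q) = 1) :
    (∀ p ∈ A, T (X p) = {i}) ∨ ∀ p ∈ A, T (X p) = {j} := by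
  by_cases hij : i = j
  · subst hij
    left
    intro p hp
    have h1 := hK p (hAK hp)
    rw [pair_eq_singleton] at h1
    obtain ⟨l, hl⟩ := h.ne (X p)
    have : l = i := h1 hl
    subst this
    exact Subset.antisymm h1 (singleton_subset_iff.2 hl)
  have key : ∀ p ∈ A, T (X p) = {i} ∨ T (X p) = {j} := by
    intro p hp
    have h1 := hK p (hAK hp)
    by_cases hi : i ∈ T (X p)
    · by_cases hj : j ∈ T (X p)
      · exfalso
        have e : T (X p) = {i, j} := Subset.antisymm h1 (by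
          rintro l (rfl | hl)
          · exact hi
          · rw [mem_singleton_iff.1 hl]; exact hj)
        obtain ⟨q, hq, hd⟩ := hpart p hp
        refine h.not_sub (x := X p) (y := X q) (by rw [dist_comm]; exact hd) ?_ ?_
        · rw [e]; exact (ncard_pair hij).le.trans (by norm_num)
        · rw [e]; exact hK q hq
      · left
        refine Subset.antisymm (fun l hl => ?_) (singleton_subset_iff.2 hi)
        rcases h1 hl with rfl | hl2
        · rfl
        · rw [mem_singleton_iff.1 hl2] at hl; exact absurd hl hj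
    · right
      obtain ⟨l, hl⟩ := h.ne (X p)
      have hlj : l = j := by
        rcases h1 hl with rfl | hl2
        · exact absurd hl hi
        · exact hl2
      subst hlj
      refine Subset.antisymm (fun l' hl' => ?_) (singleton_subset_iff.2 hl)
      rcases h1 hl' with rfl | hl2
      · exact absurd hl' hi
      · exact hl2
  rcases A.eq_empty_or_nonempty with hE | ⟨p0, hp0⟩
  · left; intro p hp; rw [hE] at hp; exact absurd hp (notMem_empty _)
  have hcov : A ⊆ X ⁻¹' {x | T x = {i}} ∪ X ⁻¹' {x | T x = {j}} := fun p hp => key p hp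
  have hdis : Disjoint (X ⁻¹' {x | T x = {i}}) (X ⁻¹' {x | T x = {j}}) := by
    rw [Set.disjoint_left]
    intro p h1 h2
    have h1 : T (X p) = {i} := h1
    have h2 : T (X p) = {j} := h2
    rw [h1] at h2
    exact hij (singleton_injective h2)
  rcases key p0 hp0 with h0 | h0
  · left
    exact fun p hp => hA.subset_left_of_subset_union ((pure_open h i).preimage hX)
      ((pure_open h j).preimage hX) hdis hcov ⟨p0, hp0, h0⟩ hp
  · right
    exact fun p hp => hA.subset_right_of_subset_union ((pure_open h i).preimage hX)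
      ((pure_open h j).preimage hX) hdis hcov ⟨p0, hp0, h0⟩ hp

/-- sums of two points of the circle -/
def Xs2 (z : ℂ) (p : ℝ × ℝ) : ℂ := pt z p.1 + pt z p.2 - z

theorem continuous_Xs2 (z : ℂ) : Continuous (Xs2 z) :=
  (((continuous_pt z).comp continuous_fst).add ((continuous_pt z).comp continuous_snd)).sub
    continuous_const

/-- cosine with angles in units of 60 degrees -/
def c6 (x : ℝ) : ℝ := Real.cos (x * (Real.pi / 3))

/-- sine with angles in units of 60 degrees -/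
def s6 (x : ℝ) : ℝ := Real.sin (x * (Real.pi / 3))

theorem c6_sub (x y : ℝ) : c6 (x - y) = c6 x * c6 y + s6 x * s6 y := by
  unfold c6 s6; rw [sub_mul, Real.cos_sub]

theorem c6_add (x y : ℝ) : c6 (x + y) = c6 x * c6 y - s6 x * s6 y := by
  unfold c6 s6; rw [add_mul, Real.cos_add]

theorem s6_add (x y : ℝ) : s6 (x + y) = s6 x * c6 y + c6 x * s6 y := by
  unfold c6 s6; rw [add_mul, Real.sin_add]

theorem s6_sub (x y : ℝ) : s6 (x - y) = s6 x * c6 y - c6 x * s6 y := by
  unfold c6 s6; rw [sub_mul, Real.sin_sub]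

theorem sc6 (x : ℝ) : s6 x ^ 2 + c6 x ^ 2 = 1 := Real.sin_sq_add_cos_sq _

theorem c6_one : c6 1 = 1 / 2 := by unfold c6; rw [one_mul]; exact Real.cos_pi_div_three

theorem s6_one : s6 1 = Real.sqrt 3 / 2 := by unfold s6; rw [one_mul]; exact Real.sin_pi_div_three

theorem c6_zero : c6 0 = 1 := by unfold c6; rw [zero_mul, Real.cos_zero]

theorem s6_zero : s6 0 = 0 := by unfold s6; rw [zero_mul, Real.sin_zero]

theorem c6_neg (x : ℝ) : c6 (-x) = c6 x := by unfold c6; rw [neg_mul, Real.cos_neg]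

theorem s6_neg (x : ℝ) : s6 (-x) = -s6 x := by unfold s6; rw [neg_mul, Real.sin_neg]

theorem s6_nonneg {x : ℝ} (h0 : 0 ≤ x) (h1 : x ≤ 3) : 0 ≤ s6 x := by
  unfold s6
  have hpi := Real.pi_pos
  refine Real.sin_nonneg_of_nonneg_of_le_pi (by positivity) ?_
  nlinarith

theorem s6_pos {x : ℝ} (h0 : 0 < x) (h1 : x < 3) : 0 < s6 x := by
  unfold s6
  have hpi := Real.pi_pos
  refine Real.sin_pos_of_pos_of_lt_pi (by positivity) ?_
  nlinarith

theorem c6_nonneg {x : ℝ} (h0 : -(3 / 2) ≤ x) (h1 : x ≤ 3 / 2) : 0 ≤ c6 x := by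
  unfold c6
  have hpi := Real.pi_pos
  refine Real.cos_nonneg_of_mem_Icc ⟨?_, ?_⟩ <;> nlinarith

theorem c6_pos {x : ℝ} (h0 : -(3 / 2) < x) (h1 : x < 3 / 2) : 0 < c6 x := by
  unfold c6
  have hpi := Real.pi_pos
  refine Real.cos_pos_of_mem_Ioo ⟨?_, ?_⟩ <;> nlinarith

theorem c6_le_one (x : ℝ) : c6 x ≤ 1 := Real.cos_le_one _

/-- monotonicity of the cosine -/
theorem c6_lt {x y : ℝ} (h0 : 0 ≤ x) (hxy : x < y) (h1 : y ≤ 3) : c6 y < c6 x := by
  unfold c6
  have hpi := Real.pi_pos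
  refine Real.cos_lt_cos_of_nonneg_of_le_pi (by positivity) ?_ ?_
  · nlinarith
  · nlinarith

theorem sq_dist_X (z : ℂ) (s t s' t' : ℝ) : dist (Xs2 z (s, t)) (Xs2 z (s', t')) ^ 2 =
    4 + 2 * (c6 (s - t) - c6 (s - s') - c6 (s - t') - c6 (t - s') - c6 (t - t') + c6 (s' - t')) := by
  rw [sq_dist]
  unfold Xs2 pt
  simp only [Complex.add_re, Complex.add_im, Complex.sub_re, Complex.sub_im, cis_re, cis_im]
  simp only [c6_sub]
  have h1 := sc6 s
  have h2 := sc6 t
  have h3 := sc6 s'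
  have h4 := sc6 t'
  unfold c6 s6 at *
  linear_combination h1 + h2 + h3 + h4

/-- the square of the distance from the corner `(-1, 0)` -/
def gp (a b : ℝ) : ℝ := 5 + 2 * (c6 (b - a) - c6 (a + 1) - c6 a - c6 (b + 1) - c6 b)

theorem gp_eq (z : ℂ) (w a b : ℝ) :
    dist (Xs2 z (w + a, w + b)) (Xs2 z (w + -1, w + 0)) ^ 2 = gp a b := by
  rw [sq_dist_X]
  unfold gp
  have e1 : w + a - (w + b) = -(b - a) := by ring
  have e2 : w + a - (w + -1) = a + 1 := by ring
  have e3 : w + a - (w + 0) = a := by ring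
  have e4 : w + b - (w + -1) = b + 1 := by ring
  have e5 : w + b - (w + 0) = b := by ring
  have e6 : w + -1 - (w + 0) = -1 := by ring
  rw [e1, e2, e3, e4, e5, e6, c6_neg, c6_neg, c6_one]
  ring

theorem gp_eq' (z : ℂ) (w a b : ℝ) :
    dist (Xs2 z (w + a, w + b)) (Xs2 z (w + 0, w + 1)) ^ 2 = gp (-b) (-a) := by
  rw [sq_dist_X]
  unfold gp
  have e1 : w + a - (w + b) = -(-a - -b) := by ring
  have e2 : w + a - (w + 0) = -(-a) := by ring
  have e3 : w + a - (w + 1) = -(-a + 1) := by ring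
  have e4 : w + b - (w + 0) = -(-b) := by ring
  have e5 : w + b - (w + 1) = -(-b + 1) := by ring
  have e6 : w + 0 - (w + 1) = -1 := by ring
  rw [e1, e2, e3, e4, e5, e6]
  simp only [c6_neg, c6_one]
  ring

/-- difference of two cosines -/
theorem c6_diff (x y : ℝ) : c6 x - c6 y = -2 * s6 ((x + y) / 2) * s6 ((x - y) / 2) := by
  unfold c6 s6
  rw [Real.cos_sub_cos]
  have e1 : (x * (Real.pi / 3) + y * (Real.pi / 3)) / 2 = (x + y) / 2 * (Real.pi / 3) := by ring
  have e2 : (x * (Real.pi / 3) - y * (Real.pi / 3)) / 2 = (x - y) / 2 * (Real.pi / 3) := by ring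
  rw [e1, e2]

/-- the distance grows with the second coordinate -/
theorem gp_mono_snd {a b b' : ℝ} (ha : -1 ≤ a) (ha0 : a ≤ 0) (hb : 0 ≤ b) (hbb : b ≤ b') (hb1 : b' ≤ 1) :
    gp a b ≤ gp a b' := by
  have e1 := c6_diff (b' - a) (b - a)
  have e2 := c6_diff (b' + 1) (b + 1)
  have e3 := c6_diff b' b
  set m := (b' + b) / 2 with hm
  set d := (b' - b) / 2 with hd
  have f1 : (b' - a + (b - a)) / 2 = m - a := by rw [hm]; ring
  have f2 : (b' - a - (b - a)) / 2 = d := by rw [hd]; ring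
  have f3 : (b' + 1 + (b + 1)) / 2 = m + 1 := by rw [hm]; ring
  have f4 : (b' + 1 - (b + 1)) / 2 = d := by rw [hd]; ring
  rw [f1, f2] at e1
  rw [f3, f4] at e2
  have key : s6 (m - a) ≤ s6 (m + 1) + s6 m := by
    rw [s6_sub, s6_add, c6_one, s6_one]
    have hm0 : 0 ≤ s6 m := s6_nonneg (by linarith) (by linarith)
    have hm1 : 0 ≤ c6 m := c6_nonneg (by linarith) (by linarith)
    have h1 := c6_le_one a
    have h2 : -s6 a ≤ Real.sqrt 3 / 2 := by
      have h3 := s6_nonneg (x := -a) (by linarith) (by linarith)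
      have h4 : 0 ≤ s6 (a + 1) := s6_nonneg (by linarith) (by linarith)
      rw [s6_neg] at h3
      rw [s6_add, c6_one, s6_one] at h4
      have h5 := sc6 a
      have h6 : 0 ≤ c6 a := c6_nonneg (by linarith) (by linarith)
      have h7 : Real.sqrt 3 ^ 2 = 3 := Real.sq_sqrt (by norm_num)
      have h8 := Real.sqrt_nonneg 3
      -- `s6 a ^ 2 <= 3 c6 a ^ 2`
      have h9 : s6 a ^ 2 ≤ 3 * c6 a ^ 2 := by nlinarith
      nlinarith
    nlinarith [mul_nonneg hm0 (sub_nonneg.2 h1), mul_nonneg hm1 (sub_nonneg.2 h2)]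
  have hd0 : 0 ≤ s6 d := s6_nonneg (by linarith) (by linarith)
  unfold gp
  nlinarith [mul_nonneg hd0 (sub_nonneg.2 key)]

/-- the distance grows with the first coordinate -/
theorem gp_mono_fst {a a' b : ℝ} (ha : -1 ≤ a) (haa : a ≤ a') (ha0 : a' ≤ 0) (hb : 0 ≤ b) (hb1 : b ≤ 1) :
    gp a b ≤ gp a' b := by
  have e1 := c6_diff (b - a') (b - a)
  have e2 := c6_diff (a' + 1) (a + 1)
  have e3 := c6_diff a' a
  set m := (a' + a) / 2 with hm
  set d := (a' - a) / 2 with hd
  have f1 : (b - a' + (b - a)) / 2 = b - m := by rw [hm]; ring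
  have f2 : (b - a' - (b - a)) / 2 = -d := by rw [hd]; ring
  have f3 : (a' + 1 + (a + 1)) / 2 = m + 1 := by rw [hm]; ring
  have f4 : (a' + 1 - (a + 1)) / 2 = d := by rw [hd]; ring
  rw [f1, f2, s6_neg] at e1
  rw [f3, f4] at e2
  have key : 0 ≤ s6 (b - m) + s6 (m + 1) + s6 m := by
    rw [s6_sub, s6_add, c6_one, s6_one]
    have hb0 : 0 ≤ s6 b := s6_nonneg (by linarith) (by linarith)
    have hm1 : 0 ≤ c6 m := c6_nonneg (by linarith) (by linarith)
    have h7 : Real.sqrt 3 ^ 2 = 3 := Real.sq_sqrt (by norm_num)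
    have h8 := Real.sqrt_nonneg 3
    have h3 : 0 ≤ -s6 m := by
      have := s6_nonneg (x := -m) (by linarith) (by linarith)
      rwa [s6_neg] at this
    -- `-s6 m <= sqrt 3 c6 m`
    have h4 : -s6 m ≤ Real.sqrt 3 * c6 m := by
      have := s6_nonneg (x := m + 1) (by linarith) (by linarith)
      rw [s6_add, c6_one, s6_one] at this
      linarith
    -- `sqrt 3 <= s6 b + sqrt 3 c6 b`
    have h5 : Real.sqrt 3 ≤ s6 b + Real.sqrt 3 * c6 b := by
      have q1 : 0 ≤ s6 (b / 2) := s6_nonneg (by linarith) (by linarith)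
      have q2 : 0 ≤ s6 (1 / 2 - b / 2) := s6_nonneg (by linarith) (by linarith)
      have q3 := c6_diff b 0
      rw [c6_zero, add_zero, sub_zero] at q3
      have q4 : s6 b = 2 * s6 (b / 2) * c6 (b / 2) := by
        have : b = b / 2 + b / 2 := by ring
        conv_lhs => rw [this]
        rw [s6_add]; ring
      have q5 : s6 (1 / 2) = 1 / 2 := by
        unfold s6
        have : (1 / 2 : ℝ) * (Real.pi / 3) = Real.pi / 6 := by ring
        rw [this, Real.sin_pi_div_six]
      have q6 : c6 (1 / 2) = Real.sqrt 3 / 2 := by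
        unfold c6
        have : (1 / 2 : ℝ) * (Real.pi / 3) = Real.pi / 6 := by ring
        rw [this, Real.cos_pi_div_six]
      rw [s6_sub, q5, q6] at q2
      -- `sqrt 3 s6 (b/2) <= c6 (b/2)`
      have q7 : 0 ≤ s6 (b / 2) * (c6 (b / 2) - Real.sqrt 3 * s6 (b / 2)) :=
        mul_nonneg q1 (by linarith)
      nlinarith
    have h9 : 0 ≤ c6 b := c6_nonneg (by linarith) (by linarith)
    have h10 : c6 b ≤ 1 := c6_le_one b
    -- s6 b c6 m + (3/2 - c6 b) s6 m + (sqrt 3/2) c6 m >= 0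
    have h11 : (3 / 2 - c6 b) * (-s6 m) ≤ (3 / 2 - c6 b) * (Real.sqrt 3 * c6 m) :=
      mul_le_mul_of_nonneg_left h4 (by linarith)
    nlinarith [mul_nonneg hm1 (sub_nonneg.2 h5)]
  have hd0 : 0 ≤ s6 d := s6_nonneg (by linarith) (by linarith)
  unfold gp
  nlinarith [mul_nonneg hd0 key]

/-- the open cell -/
def K0 : Set (ℝ × ℝ) := {p | -1 < p.1 ∧ p.1 < 0 ∧ 0 < p.2 ∧ p.2 < 1}

/-- the part of the cell at distance `> 1` from the corner `(-1, 0)` -/
def Ap : Set (ℝ × ℝ) := {p | p ∈ K0 ∧ 1 < gp p.1 p.2}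

/-- the part of the cell at distance `> 1` from the corner `(0, 1)` -/
def Am : Set (ℝ × ℝ) := {p | p ∈ K0 ∧ 1 < gp (-p.2) (-p.1)}

theorem continuous_c6 : Continuous c6 := by unfold c6; fun_prop

theorem continuous_gp : Continuous fun p : ℝ × ℝ => gp p.1 p.2 := by
  unfold gp
  have := continuous_c6
  fun_prop

theorem ap_open : IsOpen Ap := by
  have h : Ap = {p : ℝ × ℝ | -1 < p.1} ∩ {p | p.1 < 0} ∩ {p | 0 < p.2} ∩ {p | p.2 < 1} ∩
      {p | 1 < gp p.1 p.2} := by
    ext p; simp only [Ap, K0, mem_ofPred_eq, mem_inter_iff]; tauto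
  rw [h]
  exact ((((isOpen_lt continuous_const continuous_fst).inter
    (isOpen_lt continuous_fst continuous_const)).inter
    (isOpen_lt continuous_const continuous_snd)).inter
    (isOpen_lt continuous_snd continuous_const)).inter (isOpen_lt continuous_const continuous_gp)

theorem ap_up {p r : ℝ × ℝ} (hp : p ∈ Ap) (h1 : p.1 ≤ r.1) (h2 : p.2 ≤ r.2) (h3 : r.1 < 0)
    (h4 : r.2 < 1) : r ∈ Ap := by
  obtain ⟨⟨a, b, c, d⟩, e⟩ := hp
  refine ⟨⟨by linarith, h3, by linarith, h4⟩, ?_⟩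
  have e1 := gp_mono_fst (b := p.2) a.le h1 h3.le c.le d.le
  have e2 := gp_mono_snd (a := r.1) (by linarith) h3.le c.le h2 h4.le
  linarith

theorem ap_pre : IsPreconnected Ap := by
  refine isPreconnected_of_forall_pair fun p hp q hq => ?_
  set r : ℝ × ℝ := (max p.1 q.1, max p.2 q.2) with hr
  have r1 : r.1 < 0 := max_lt hp.1.2.1 hq.1.2.1
  have r2 : r.2 < 1 := max_lt hp.1.2.2.2 hq.1.2.2.2
  have key : ∀ x ∈ Ap, x.1 ≤ r.1 → x.2 ≤ r.2 → segment ℝ x r ⊆ Ap := by
    intro x hx hx1 hx2 y hy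
    rw [segment_eq_image] at hy
    obtain ⟨θ, ⟨t0, t1⟩, rfl⟩ := hy
    have e1 : ((1 - θ) • x + θ • r).1 = (1 - θ) * x.1 + θ * r.1 := rfl
    have e2 : ((1 - θ) • x + θ • r).2 = (1 - θ) * x.2 + θ * r.2 := rfl
    refine ap_up hx ?_ ?_ ?_ ?_
    · rw [e1]; nlinarith
    · rw [e2]; nlinarith
    · rw [e1]; nlinarith [hx.1.2.1]
    · rw [e2]; nlinarith [hx.1.2.2.2]
  refine ⟨segment ℝ p r ∪ segment ℝ q r, union_subset (key p hp (le_max_left _ _) (le_max_left _ _))
    (key q hq (le_max_right _ _) (le_max_right _ _)), Or.inl (left_mem_segment ℝ p r),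
    Or.inr (left_mem_segment ℝ q r), ?_⟩
  exact (convex_segment p r).isPreconnected.union r (right_mem_segment ℝ p r)
    (right_mem_segment ℝ q r) (convex_segment q r).isPreconnected

theorem am_iff {p : ℝ × ℝ} : p ∈ Am ↔ (-p.2, -p.1) ∈ Ap := by
  unfold Am Ap K0
  simp only [mem_ofPred_eq]
  constructor
  · rintro ⟨⟨a, b, c, d⟩, e⟩
    exact ⟨⟨by linarith, by linarith, by linarith, by linarith⟩, e⟩
  · rintro ⟨⟨a, b, c, d⟩, e⟩
    exact ⟨⟨by linarith, by linarith, by linarith, by linarith⟩, e⟩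

theorem am_pre : IsPreconnected Am := by
  have e : Am = (fun p : ℝ × ℝ => (-p.2, -p.1)) '' Ap := by
    ext p
    rw [am_iff]
    constructor
    · intro h
      exact ⟨_, h, by simp⟩
    · rintro ⟨q, hq, rfl⟩
      simpa using hq
  rw [e]
  exact ap_pre.image _ (by fun_prop)

/-- the points of the cell about the base direction `w` -/
def Xw (z : ℂ) (w : ℝ) (p : ℝ × ℝ) : ℂ := Xs2 z (w + p.1, w + p.2)

theorem continuous_Xw (z : ℂ) (w : ℝ) : Continuous (Xw z w) := (continuous_Xs2 z).comp (by fun_prop)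

theorem one_lt_of_sq {x : ℝ} (h : 0 ≤ x) (h1 : 1 < x ^ 2) : 1 < x := by
  by_contra hcon
  push Not at hcon
  nlinarith

/-- unit partners of the points at distance `> 1` from a corner -/
theorem exists_partner {f : ℝ × ℝ → ℂ} (hf : Continuous f) {p c : ℝ × ℝ} (hp : p ∈ K0)
    (hc : -1 ≤ c.1 ∧ c.1 ≤ 0 ∧ 0 ≤ c.2 ∧ c.2 ≤ 1) (h1 : 1 < dist (f p) (f c)) :
    ∃ q ∈ K0, dist (f p) (f q) = 1 := by
  have hcont : ContinuousOn (fun θ : ℝ => dist (f p) (f ((1 - θ) * p.1 + θ * c.1, (1 - θ) * p.2 + θ * c.2)))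
      (Icc 0 1) := by
    refine Continuous.continuousOn ?_
    exact continuous_const.dist (hf.comp (by fun_prop))
  have h2 : (1 : ℝ) ∈ Icc (dist (f p) (f ((1 - 0) * p.1 + 0 * c.1, (1 - 0) * p.2 + 0 * c.2)))
      (dist (f p) (f ((1 - 1) * p.1 + 1 * c.1, (1 - 1) * p.2 + 1 * c.2))) := by
    constructor
    · simp
    · simpa using h1.le
  obtain ⟨θ, ⟨t0, t1⟩, ht⟩ := intermediate_value_Icc (by norm_num : (0 : ℝ) ≤ 1) hcont h2
  have t1' : θ < 1 := by
    rcases t1.lt_or_eq with h | h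
    · exact h
    · exfalso
      subst h
      simp at ht
      rw [ht] at h1
      exact lt_irrefl _ h1
  obtain ⟨a, b, c', d⟩ := hp
  obtain ⟨k1, k2, k3, k4⟩ := hc
  exact ⟨_, ⟨by show -1 < (1 - θ) * p.1 + θ * c.1; nlinarith, by show (1 - θ) * p.1 + θ * c.1 < 0; nlinarith,
    by show 0 < (1 - θ) * p.2 + θ * c.2; nlinarith, by show (1 - θ) * p.2 + θ * c.2 < 1; nlinarith⟩, ht⟩

theorem ap_partner (z : ℂ) (w : ℝ) {p : ℝ × ℝ} (hp : p ∈ Ap) : ∃ q ∈ K0, dist (Xw z w p) (Xw z w q) = 1 := by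
  refine exists_partner (continuous_Xw z w) (c := (-1, 0)) hp.1 ⟨le_rfl, by norm_num, le_rfl, by norm_num⟩ ?_
  refine one_lt_of_sq dist_nonneg ?_
  have := gp_eq z w p.1 p.2
  unfold Xw
  rw [this]; exact hp.2

theorem am_partner (z : ℂ) (w : ℝ) {p : ℝ × ℝ} (hp : p ∈ Am) : ∃ q ∈ K0, dist (Xw z w p) (Xw z w q) = 1 := by
  refine exists_partner (continuous_Xw z w) (c := (0, 1)) hp.1 ⟨by norm_num, le_rfl, by norm_num, le_rfl⟩ ?_
  refine one_lt_of_sq dist_nonneg ?_
  have := gp_eq' z w p.1 p.2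
  unfold Xw
  rw [this]; exact hp.2

/-- the top edge -/
theorem gp_top {a : ℝ} (h1 : -1 < a) (h2 : a ≤ 0) : 1 < gp a 1 := by
  have e : gp a 1 = 5 - 4 * c6 (a + 1) := by
    unfold gp
    have k1 : c6 (1 - a) = 1 / 2 * c6 a + Real.sqrt 3 / 2 * s6 a := by rw [c6_sub, c6_one, s6_one]
    have k2 : c6 (1 + 1) = -1 / 2 := by
      rw [c6_add, c6_one, s6_one]
      have : Real.sqrt 3 ^ 2 = 3 := Real.sq_sqrt (by norm_num)
      nlinarith
    have k3 : c6 (a + 1) = c6 a * (1 / 2) - s6 a * (Real.sqrt 3 / 2) := by rw [c6_add, c6_one, s6_one]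
    rw [k1, k2, k3, c6_one]
    ring
  rw [e]
  have := c6_lt (x := 0) (y := a + 1) le_rfl (by linarith) (by linarith)
  rw [c6_zero] at this
  linarith

/-- the right edge -/
theorem gp_right {b : ℝ} (h1 : 0 < b) (h2 : b ≤ 1) : 1 < gp 0 b := by
  have e : gp 0 b = 2 - 2 * c6 (b + 1) := by
    unfold gp
    rw [sub_zero, zero_add, c6_one, c6_zero]
    ring
  rw [e]
  have := c6_lt (x := 1) (y := b + 1) (by norm_num) (by linarith) (by linarith)
  rw [c6_one] at this
  linarith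

/-- the corner `(-1, 1)` is a limit of points of `Ap` -/
theorem corner_ap : ((-1 : ℝ), (1 : ℝ)) ∈ closure Ap := by
  have h1 : ∀ a : ℝ, -1 < a → a < 0 → (a, (1 : ℝ)) ∈ closure Ap := by
    intro a ha ha0
    have ht : Tendsto (fun b : ℝ => (a, b)) (𝓝[<] 1) (𝓝 (a, 1)) :=
      ((by fun_prop : Continuous fun b : ℝ => (a, b)).tendsto 1).mono_left nhdsWithin_le_nhds
    refine mem_closure_of_tendsto ht ?_
    have h2 : ∀ᶠ b : ℝ in 𝓝[<] 1, 1 < gp a b := by
      have hc : ContinuousAt (fun b : ℝ => gp a b) 1 := by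
        have := continuous_gp.comp (by fun_prop : Continuous fun b : ℝ => (a, b))
        exact this.continuousAt
      exact (hc.eventually_const_lt (gp_top ha ha0.le)).filter_mono nhdsWithin_le_nhds
    filter_upwards [h2, self_mem_nhdsWithin, ev_sub nhdsWithin_le_nhds (Ioi_mem_nhds (zero_lt_one' ℝ))]
      with b hb hb1 hb2
    exact ⟨⟨ha, ha0, hb2, hb1⟩, hb⟩
  have ht : Tendsto (fun a : ℝ => (a, (1 : ℝ))) (𝓝[>] (-1)) (𝓝 (-1, 1)) :=
    ((by fun_prop : Continuous fun a : ℝ => (a, (1 : ℝ))).tendsto (-1)).mono_left nhdsWithin_le_nhds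
  have h2 : ∀ᶠ a : ℝ in 𝓝[>] (-1), (a, (1 : ℝ)) ∈ closure Ap := by
    filter_upwards [self_mem_nhdsWithin, ev_sub nhdsWithin_le_nhds (Iio_mem_nhds (by norm_num : (-1 : ℝ) < 0))]
      with a ha ha0
    exact h1 a ha ha0
  exact isClosed_closure.mem_of_tendsto ht h2

theorem corner_am : ((-1 : ℝ), (1 : ℝ)) ∈ closure Am := by
  have hc : Continuous fun p : ℝ × ℝ => (-p.2, -p.1) := by fun_prop
  have h1 := image_closure_subset_closure_image (s := Ap) hc ⟨_, corner_ap, rfl⟩
  simp only [neg_neg] at h1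
  refine closure_mono ?_ h1
  rintro _ ⟨q, hq, rfl⟩
  rw [am_iff]
  simpa using hq

/-- the distance of two points on opposite edges -/
theorem gap_eq (z : ℂ) (w t : ℝ) : dist (Xw z w (0, t)) (Xw z w (-t, 0)) ^ 2 = 4 * s6 t ^ 2 := by
  unfold Xw
  rw [sq_dist_X]
  have e1 : w + 0 - (w + t) = -t := by ring
  have e2 : w + 0 - (w + -t) = t := by ring
  have e3 : w + 0 - (w + 0) = 0 := by ring
  have e4 : w + t - (w + -t) = t + t := by ring
  have e5 : w + t - (w + 0) = t := by ring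
  have e6 : w + -t - (w + 0) = -t := by ring
  rw [e1, e2, e3, e4, e5, e6, c6_neg, c6_zero, c6_add]
  have := sc6 t
  nlinarith

/-- **a unit pair** between the two parts -/
theorem exists_unit_pair (z : ℂ) (w : ℝ) : ∃ p ∈ Ap, ∃ q ∈ Am, dist (Xw z w p) (Xw z w q) = 1 := by
  have hX := continuous_Xw z w
  -- the curves near the edges
  have hF : Continuous fun x : ℝ × ℝ => dist (Xw z w (-x.1, x.2)) (Xw z w (-x.2, x.1)) :=
    (hX.comp (by fun_prop : Continuous fun x : ℝ × ℝ => (-x.1, x.2))).dist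
      (hX.comp (by fun_prop : Continuous fun x : ℝ × ℝ => (-x.2, x.1)))
  have key : ∀ t : ℝ, 0 < t → t < 1 → ∀ᶠ e : ℝ in 𝓝[>] 0, (-e, t) ∈ Ap := by
    intro t ht ht1
    have hc : ContinuousAt (fun e : ℝ => gp (-e) t) 0 := by
      have := continuous_gp.comp (by fun_prop : Continuous fun e : ℝ => (-e, t))
      exact this.continuousAt
    have h0 : 1 < gp (-0) t := by rw [neg_zero]; exact gp_right ht ht1.le
    filter_upwards [(hc.eventually_const_lt h0).filter_mono nhdsWithin_le_nhds, self_mem_nhdsWithin,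
      ev_sub nhdsWithin_le_nhds (Iio_mem_nhds (zero_lt_one' ℝ))] with e he he0 he1
    have he0 : 0 < e := he0
    have he1 : e < 1 := he1
    exact ⟨⟨by show -1 < -e; linarith, by show -e < 0; linarith, ht, ht1⟩, he⟩
  have q5 : s6 (1 / 2) = 1 / 2 := by
    unfold s6
    have : (1 / 2 : ℝ) * (Real.pi / 3) = Real.pi / 6 := by ring
    rw [this, Real.sin_pi_div_six]
  -- distances at the two ends
  have d1 : ∀ t : ℝ, 0 < t → t < 1 / 2 → dist (Xw z w (-0, t)) (Xw z w (-t, 0)) < 1 := by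
    intro t ht ht1
    have h1 := gap_eq z w t
    have h2 : s6 t < 1 / 2 := by
      rw [← q5]
      unfold s6
      have hpi := Real.pi_pos
      refine Real.sin_lt_sin_of_lt_of_le_pi_div_two ?_ ?_ ?_ <;> nlinarith
    have h3 := s6_pos ht (by linarith)
    rw [neg_zero]
    have h4 := dist_nonneg (x := Xw z w (0, t)) (y := Xw z w (-t, 0))
    nlinarith
  have d2 : ∀ t : ℝ, 1 / 2 < t → t < 1 → 1 < dist (Xw z w (-0, t)) (Xw z w (-t, 0)) := by
    intro t ht ht1
    have h1 := gap_eq z w t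
    have h2 : 1 / 2 < s6 t := by
      rw [← q5]
      unfold s6
      have hpi := Real.pi_pos
      refine Real.sin_lt_sin_of_lt_of_le_pi_div_two ?_ ?_ ?_ <;> nlinarith
    rw [neg_zero]
    have h4 := dist_nonneg (x := Xw z w (0, t)) (y := Xw z w (-t, 0))
    nlinarith
  have e1 : ∀ᶠ e : ℝ in 𝓝[>] 0, dist (Xw z w (-e, 1 / 4)) (Xw z w (-(1 / 4), e)) < 1 := by
    have hc : ContinuousAt (fun e : ℝ => dist (Xw z w (-e, 1 / 4)) (Xw z w (-(1 / 4), e))) 0 :=
      (hF.comp (by fun_prop : Continuous fun e : ℝ => (e, (1 / 4 : ℝ)))).continuousAt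
    exact (hc.eventually_lt_const (d1 (1 / 4) (by norm_num) (by norm_num))).filter_mono nhdsWithin_le_nhds
  have e2 : ∀ᶠ e : ℝ in 𝓝[>] 0, 1 < dist (Xw z w (-e, 3 / 4)) (Xw z w (-(3 / 4), e)) := by
    have hc : ContinuousAt (fun e : ℝ => dist (Xw z w (-e, 3 / 4)) (Xw z w (-(3 / 4), e))) 0 :=
      (hF.comp (by fun_prop : Continuous fun e : ℝ => (e, (3 / 4 : ℝ)))).continuousAt
    exact (hc.eventually_const_lt (d2 (3 / 4) (by norm_num) (by norm_num))).filter_mono nhdsWithin_le_nhds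
  obtain ⟨e, a1, a2, a3⟩ := ((key (1 / 4) (by norm_num) (by norm_num)).and (e1.and e2)).exists
  have he1 : 0 < e := by have := a1.1.2.1; simp only at this; linarith
  -- intermediate value along `t`
  have hcont : ContinuousOn (fun t : ℝ => dist (Xw z w (-e, t)) (Xw z w (-t, e))) (Icc (1 / 4) (3 / 4)) :=
    (hF.comp (by fun_prop : Continuous fun t : ℝ => (e, t))).continuousOn
  obtain ⟨t, ⟨t0, t1⟩, ht⟩ := intermediate_value_Icc (by norm_num : (1 / 4 : ℝ) ≤ 3 / 4) hcont
    ⟨a2.le, a3.le⟩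
  have hp : (-e, t) ∈ Ap := ap_up a1 le_rfl t0 a1.1.2.1 (by show t < 1; linarith)
  refine ⟨(-e, t), hp, (-t, e), ?_, ht⟩
  rw [am_iff]
  simpa using hp

end Vale.Agent.P032.H892
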