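import Vale.Agent.P032W.H892.Inst

/-!
# P032: the first two word facts with special ends (irredundant frame)

`Ctr.L1g` : a centre `z` with the pairs `ab | cd`, at most four colours at the points of `S(z)`.  The points of `S(z)`
where `e` meets the closure of the exact `ab`- or `cd`-arcs, together with one point of every pair of neighbours with
two common letters, are at least two.  `Ctr.L2g` : the points of the types `e|A`, `f|C`, `A|C` with one point of every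
such pair of neighbours are at least three, if one of them has at most three colours.
-/

open Set Filter Topology Metric

noncomputable section

namespace Vale.Agent.P032.H892

open Vale.Agent.P032.Six Vale.Agent.P032.Words Vale.Agent.P032.S5.H767

variable {U : Fin 6 → Set ℂ} {T : ℂ → Set (Fin 6)} {z : ℂ} {a b c d e f : Fin 6}

theorem pt_inj {z : ℂ} {u v : ℝ} (h : pt z u = pt z v) : ∃ n : ℤ, u = v + 6 * n := by
  have h1 : cis (u * (Real.pi / 3)) = cis (v * (Real.pi / 3)) := add_left_cancel h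
  unfold cis at h1
  obtain ⟨n, hn⟩ := Complex.exp_eq_exp_iff_exists_int.1 h1
  refine ⟨n, ?_⟩
  have h2 : ((u * (Real.pi / 3) : ℝ) : ℂ) = ((v * (Real.pi / 3) + n * (2 * Real.pi) : ℝ) : ℂ) := by
    have hI := Complex.I_ne_zero
    have : (((u * (Real.pi / 3) : ℝ) : ℂ) - ((v * (Real.pi / 3) + n * (2 * Real.pi) : ℝ) : ℂ)) *
        Complex.I = 0 := by
      push_cast
      push_cast at hn
      linear_combination hn
    rcases mul_eq_zero.1 this with h | h
    · exact sub_eq_zero.1 h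
    · exact absurd h hI
  have h3 : u * (Real.pi / 3) = v * (Real.pi / 3) + n * (2 * Real.pi) := by exact_mod_cast h2
  have hp := Real.pi_ne_zero
  field_simp at h3
  linarith

theorem exists_pt {z y : ℂ} (hy : dist y z = 1) : ∃ u, pt z u = y := by
  obtain ⟨t, ht⟩ := exists_cis (u := y - z) (by rw [← dist_eq_norm]; exact hy)
  refine ⟨t / (Real.pi / 3), ?_⟩
  unfold pt
  rw [div_mul_cancel₀ _ (by positivity), ← ht]
  ring

/-- angles of a finite set of points -/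
theorem exists_angles (z : ℂ) (E : Finset ℂ) : ∃ E' : Finset ℝ, E'.card ≤ E.card ∧
    ∀ u, pt z u ∈ E → ∃ e ∈ E', ∃ n : ℤ, u = e + 6 * n := by
  classical
  choose! g hg using fun (y : ℂ) (hy : dist y z = 1) => exists_pt hy
  refine ⟨E.image g, Finset.card_image_le, fun u hu => ?_⟩
  exact ⟨g (pt z u), Finset.mem_image_of_mem _ hu, pt_inj (z := z) (hg _ (dist_pt z u)).symm⟩

/-- two neighbours with two common letters -/
def Swp (T : ℂ → Set (Fin 6)) (z : ℂ) (a b c d e f : Fin 6) (y y' : ℂ) : Prop :=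
  dist y y' = 1 ∧ ∃ l m, l ≠ m ∧ y ∈ Lt T z a b c d e f l ∧ y ∈ Lt T z a b c d e f m ∧
    y' ∈ Lt T z a b c d e f l ∧ y' ∈ Lt T z a b c d e f m

/-- one of the two has four colours -/
theorem Swp.high (C : Ctr U T z a b c d e f) {y y' : ℂ} (h : Swp T z a b c d e f y y') :
    4 ≤ (T y).ncard ∨ 4 ≤ (T y').ncard := by
  obtain ⟨h1, l, m, hlm, k1, k2, k3, k4⟩ := h
  by_contra hcon
  push Not at hcon
  exact C.noswap hlm h1 (by omega) (by omega) k1 k2 k3 k4

/-- a rotation: the points of the two letters have further colours -/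
theorem rot_not_sub (C : Ctr U T z a b c d e f) {u : ℝ} {g : Hx}
    (h1 : ∀ k : Fin 6, u + (k.val : ℝ) ∈ Xg T z a b c d e f (g k))
    (h2 : ∀ k : Fin 6, u + (k.val : ℝ) ∈ Xg T z a b c d e f (g (k + 1))) (k : Fin 6) :
    col a b c d e f (g k) ∪ col a b c d e f (g (k + 1)) ⊆ T (pt z (u + (k.val : ℝ))) ∧
    ¬ T (pt z (u + (k.val : ℝ))) ⊆ col a b c d e f (g k) ∪ col a b c d e f (g (k + 1)) := by
  have w := Ctr.word C
  refine ⟨union_subset (Xg_col C.irr (h1 k)) (Xg_col C.irr (h2 k)), ?_⟩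
  -- the neighbour before
  have k0 : u + (k.val : ℝ) - 1 ∈ Xg T z a b c d e f (g k) := by
    have h3 := h2 (k - 1)
    rw [sub_add_cancel] at h3
    have h4 := w.mem_add (u - 1) (k - 1) (g k)
    rw [sub_add_cancel] at h4
    have e1 : u - 1 + ((k - 1 : Fin 6).val : ℝ) + 1 = u + ((k - 1 : Fin 6).val : ℝ) := by ring
    have e2 : u - 1 + (k.val : ℝ) = u + (k.val : ℝ) - 1 := by ring
    rw [e1, e2] at h4
    exact h4.2 h3
  have k2 : u + (k.val : ℝ) - 1 + 2 ∈ Xg T z a b c d e f (g (k + 1)) := by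
    have h3 := (w.mem_add u k _).1 (h1 (k + 1))
    have e1 : u + (k.val : ℝ) + 1 = u + (k.val : ℝ) - 1 + 2 := by ring
    rwa [e1] at h3
  have := nb_not_sub C.irr k0 k2
  have e1 : u + (k.val : ℝ) - 1 + 1 = u + (k.val : ℝ) := by ring
  rwa [e1] at this

/-- no neighbouring letters `A`, `C` in a rotation -/
theorem rot_ac (C : Ctr U T z a b c d e f) (h4 : ∀ y, dist y z = 1 → (T y).ncard ≤ 4) {u : ℝ} {g : Hx}
    (h1 : ∀ k : Fin 6, u + (k.val : ℝ) ∈ Xg T z a b c d e f (g k))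
    (h2 : ∀ k : Fin 6, u + (k.val : ℝ) ∈ Xg T z a b c d e f (g (k + 1))) (k : Fin 6)
    (hk : (g k = 2 ∧ g (k + 1) = 3) ∨ (g k = 3 ∧ g (k + 1) = 2)) : False := by
  obtain ⟨k1, k2⟩ := rot_not_sub C h1 h2 k
  have hu : col a b c d e f (g k) ∪ col a b c d e f (g (k + 1)) = {a, b, c, d} := by
    rcases hk with ⟨e1, e2⟩ | ⟨e1, e2⟩ <;> rw [e1, e2] <;> ext i <;>
      simp only [col, Matrix.cons_val, mem_union, mem_insert_iff, mem_singleton_iff] <;> tauto
  rw [hu] at k1 k2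
  have hn : [a, b, c, d].Nodup := C.nd.sublist (by
    exact List.Sublist.cons_cons _ (List.Sublist.cons_cons _ (List.Sublist.cons_cons _
      (List.Sublist.cons_cons _ (List.nil_sublist _)))))
  have h3 : 4 ≤ ({a, b, c, d} : Set (Fin 6)).ncard :=
    four_le (Or.inl rfl) (Or.inr (Or.inl rfl)) (Or.inr (Or.inr (Or.inl rfl)))
      (Or.inr (Or.inr (Or.inr rfl))) hn
  have h5 : ({a, b, c, d} : Set (Fin 6)) = T (pt z (u + (k.val : ℝ))) :=
    Set.eq_of_subset_of_ncard_le k1 ((h4 _ (dist_pt z _)).trans h3) (Set.toFinite _)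
  exact k2 h5.ge

theorem acN_ex : ∀ g : Hx, acN (code g) = true →
    ∃ k : Fin 6, (g k = 2 ∧ g (k + 1) = 3) ∨ (g k = 3 ∧ g (k + 1) = 2) := by
  intro g hg
  unfold acN at hg
  rw [List.any_eq_true] at hg
  obtain ⟨k, hk, h1⟩ := hg
  rw [List.mem_range] at hk
  set κ : Fin 6 := ⟨k, hk⟩ with hκ
  have d0 : dg (code g) k = (g κ).val := dg_code g κ
  have d1 : dg (code g) ((k + 1) % 6) = (g (κ + 1)).val := dg_code g (κ + 1)
  rw [d0, d1] at h1
  simp only [Bool.or_eq_true, Bool.and_eq_true, beq_iff_eq] at h1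
  refine ⟨κ, ?_⟩
  rcases h1 with ⟨h2, h3⟩ | ⟨h2, h3⟩
  · exact Or.inl ⟨Fin.ext h2, Fin.ext h3⟩
  · exact Or.inr ⟨Fin.ext h2, Fin.ext h3⟩

/-- **L1 with special points.** -/
theorem Ctr.L1g (C : Ctr U T z a b c d e f) (h4 : ∀ y, dist y z = 1 → (T y).ncard ≤ 4)
    (E : Finset ℂ) (hE : E.card ≤ 1)
    (hN : ∀ y, y ∈ Lt T z a b c d e f 0 → (y ∈ Lt T z a b c d e f 2 ∨ y ∈ Lt T z a b c d e f 3) →
      y ∈ E)
    (hS : ∀ y y', Swp T z a b c d e f y y' → y ∈ E ∨ y' ∈ E) : False := by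
  obtain ⟨E', hc, hE'⟩ := exists_angles z E
  have hsub : ∀ {l : Fin 4} {u : ℝ}, u ∈ Xg T z a b c d e f l → pt z u ∈ Lt T z a b c d e f l :=
    fun hu => Xg_sub_Xs C.irr hu
  refine (Ctr.word C).budget chkSingleA chkBlockA chkLoopA chkRotA
    (fun n => Nat.mod_lt _ (by norm_num)) ?_ E' (hc.trans hE) ?_ ?_ ?_
  · intro x y; unfold costA; split_ifs <;> omega
  · intro v x y hx hy hxy
    refine hE' v ?_
    fin_cases x <;> fin_cases y <;> first
      | exact absurd rfl hxy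
      | exact hN _ (hsub hx) (Or.inl (hsub hy))
      | exact hN _ (hsub hx) (Or.inr (hsub hy))
      | exact hN _ (hsub hy) (Or.inl (hsub hx))
      | exact hN _ (hsub hy) (Or.inr (hsub hx))
  · intro v x y hxy _ k1 k2 k3 k4
    rcases hS (pt z v) (pt z (v + 1)) ⟨dist_pt_one z v, x, y, hxy, hsub k1, hsub k2, hsub k3,
      hsub k4⟩ with h | h
    · obtain ⟨e1, he, n, hn⟩ := hE' v h
      exact ⟨e1, he, n, Or.inl hn⟩
    · obtain ⟨e1, he, n, hn⟩ := hE' (v + 1) h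
      exact ⟨e1, he, n, Or.inr hn⟩
  · intro u g _ h1 h2 h3
    obtain ⟨k, hk⟩ := acN_ex g h3
    exact rot_ac C h4 h1 h2 k hk

/-- a word of period three has the neighbouring letters `e, A` or `f, C`, twice -/
theorem per3_ex : ∀ g0 g1 g2 : Fin 4, g0 ≠ g1 → g1 ≠ g2 → g2 ≠ g0 →
    (∀ k : Fin 6, ¬ (((![g0, g1, g2, g0, g1, g2] : Hx) k = 2 ∧
      (![g0, g1, g2, g0, g1, g2] : Hx) (k + 1) = 3) ∨ ((![g0, g1, g2, g0, g1, g2] : Hx) k = 3 ∧
      (![g0, g1, g2, g0, g1, g2] : Hx) (k + 1) = 2))) →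
    ∃ k : Fin 6, ∃ x y : Fin 4, ((x = 0 ∧ y = 2) ∨ (x = 1 ∧ y = 3)) ∧
      (((![g0, g1, g2, g0, g1, g2] : Hx) k = x ∧ (![g0, g1, g2, g0, g1, g2] : Hx) (k + 1) = y) ∨
       ((![g0, g1, g2, g0, g1, g2] : Hx) k = y ∧ (![g0, g1, g2, g0, g1, g2] : Hx) (k + 1) = x)) ∧
      (((![g0, g1, g2, g0, g1, g2] : Hx) (k + 3) = x ∧
        (![g0, g1, g2, g0, g1, g2] : Hx) (k + 3 + 1) = y) ∨
       ((![g0, g1, g2, g0, g1, g2] : Hx) (k + 3) = y ∧
        (![g0, g1, g2, g0, g1, g2] : Hx) (k + 3 + 1) = x)) := by decide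

theorem excN_ex (g : Hx) (hp : Prp g) (hg : excN (code g) = true) :
    (∃ k : Fin 6, (g k = 2 ∧ g (k + 1) = 3) ∨ (g k = 3 ∧ g (k + 1) = 2)) ∨
    ∃ k : Fin 6, ∃ x y : Fin 4, ((x = 0 ∧ y = 2) ∨ (x = 1 ∧ y = 3)) ∧
      ((g k = x ∧ g (k + 1) = y) ∨ (g k = y ∧ g (k + 1) = x)) ∧
      ((g (k + 3) = x ∧ g (k + 3 + 1) = y) ∨ (g (k + 3) = y ∧ g (k + 3 + 1) = x)) := by
  unfold excN at hg
  rw [Bool.or_eq_true] at hg
  rcases hg with hg | hg
  · exact Or.inl (acN_ex g hg)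
  by_contra hcon
  rw [not_or] at hcon
  obtain ⟨hc1, hc2⟩ := hcon
  rw [List.all_eq_true] at hg
  have e3 : ∀ k : Fin 3, g ⟨k.val, by omega⟩ = g ⟨k.val + 3, by omega⟩ := by
    intro k
    have h1 := hg k.val (List.mem_range.2 k.isLt)
    rw [beq_iff_eq] at h1
    have d0 : dg (code g) k.val = (g ⟨k.val, by omega⟩).val := dg_code g ⟨k.val, by omega⟩
    have d1 : dg (code g) (k.val + 3) = (g ⟨k.val + 3, by omega⟩).val :=
      dg_code g ⟨k.val + 3, by omega⟩
    rw [d0, d1] at h1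
    exact Fin.ext h1
  have hgv : g = ![g 0, g 1, g 2, g 0, g 1, g 2] := by
    funext j
    fin_cases j
    · rfl
    · rfl
    · rfl
    · exact (e3 0).symm
    · exact (e3 1).symm
    · exact (e3 2).symm
  have p0 : g 0 ≠ g 1 := hp 0
  have p1 : g 1 ≠ g 2 := hp 1
  have p2 : g 2 ≠ g 0 := by
    have := hp 2
    have e0 := e3 0
    intro h
    exact this (h.trans e0)
  refine hc2 ?_
  rw [hgv]
  refine per3_ex _ _ _ p0 p1 p2 fun k hk => hc1 ⟨k, ?_⟩
  rw [← hgv] at hk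
  exact hk

theorem val_add3 : ∀ k : Fin 6, (k + 3 : Fin 6).val = k.val + 3 ∨ (k + 3 : Fin 6).val + 3 = k.val := by
  decide

/-- **L2 with special points.** -/
theorem Ctr.L2g (C : Ctr U T z a b c d e f) (h4 : ∀ y, dist y z = 1 → (T y).ncard ≤ 4)
    (y1 y2 : ℂ) (h3 : (T y1).ncard ≤ 3)
    (hN : ∀ y, (y ∈ Lt T z a b c d e f 0 ∧ y ∈ Lt T z a b c d e f 2) ∨
      (y ∈ Lt T z a b c d e f 1 ∧ y ∈ Lt T z a b c d e f 3) ∨
      (y ∈ Lt T z a b c d e f 2 ∧ y ∈ Lt T z a b c d e f 3) → y = y1 ∨ y = y2)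
    (hS : ∀ y y', Swp T z a b c d e f y y' → (y = y1 ∨ y = y2) ∨ (y' = y1 ∨ y' = y2)) :
    False := by
  classical
  obtain ⟨E', hc, hE'⟩ := exists_angles z ({y1, y2} : Finset ℂ)
  have hE'' : ∀ u, (pt z u = y1 ∨ pt z u = y2) → ∃ e ∈ E', ∃ n : ℤ, u = e + 6 * n := by
    intro u hu
    refine hE' u ?_
    rcases hu with hu | hu
    · rw [hu]; simp
    · rw [hu]; simp
  have hsub : ∀ {l : Fin 4} {u : ℝ}, u ∈ Xg T z a b c d e f l → pt z u ∈ Lt T z a b c d e f l :=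
    fun hu => Xg_sub_Xs C.irr hu
  refine (Ctr.word C).budget chkSingleB chkBlockB chkLoopB chkRotB
    (fun n => Nat.mod_lt _ (by norm_num)) ?_ E' (hc.trans Finset.card_le_two) ?_ ?_ ?_
  · intro x y; unfold costB; split_ifs <;> omega
  · intro v x y hx hy hxy
    refine hE'' v ?_
    fin_cases x <;> fin_cases y <;> first
      | exact absurd rfl hxy
      | exact hN _ (Or.inl ⟨hsub hx, hsub hy⟩)
      | exact hN _ (Or.inl ⟨hsub hy, hsub hx⟩)
      | exact hN _ (Or.inr (Or.inl ⟨hsub hx, hsub hy⟩))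
      | exact hN _ (Or.inr (Or.inl ⟨hsub hy, hsub hx⟩))
      | exact hN _ (Or.inr (Or.inr ⟨hsub hx, hsub hy⟩))
      | exact hN _ (Or.inr (Or.inr ⟨hsub hy, hsub hx⟩))
  · intro v x y hxy _ k1 k2 k3 k4
    rcases hS (pt z v) (pt z (v + 1)) ⟨dist_pt_one z v, x, y, hxy, hsub k1, hsub k2, hsub k3,
      hsub k4⟩ with h | h
    · obtain ⟨e1, he, n, hn⟩ := hE'' v h
      exact ⟨e1, he, n, Or.inl hn⟩
    · obtain ⟨e1, he, n, hn⟩ := hE'' (v + 1) h
      exact ⟨e1, he, n, Or.inr hn⟩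
  · intro u g hp h1 h2 h5
    rcases excN_ex g hp h5 with ⟨k, hk⟩ | ⟨k, x, y, hxy, hk1, hk2⟩
    · exact rot_ac C h4 h1 h2 k hk
    -- both points are four-coloured points of the type
    have key : ∀ k : Fin 6, (g k = x ∧ g (k + 1) = y) ∨ (g k = y ∧ g (k + 1) = x) →
        (pt z (u + (k.val : ℝ)) = y1 ∨ pt z (u + (k.val : ℝ)) = y2) ∧
          4 ≤ (T (pt z (u + (k.val : ℝ)))).ncard := by
      intro k hk
      have m1 := hsub (h1 k)
      have m2 := hsub (h2 k)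
      constructor
      · apply hN
        rcases hk with ⟨e1, e2⟩ | ⟨e1, e2⟩ <;> rw [e1] at m1 <;> rw [e2] at m2 <;>
          rcases hxy with ⟨rfl, rfl⟩ | ⟨rfl, rfl⟩
        · exact Or.inl ⟨m1, m2⟩
        · exact Or.inr (Or.inl ⟨m1, m2⟩)
        · exact Or.inl ⟨m2, m1⟩
        · exact Or.inr (Or.inl ⟨m2, m1⟩)
      · obtain ⟨r1, r2⟩ := rot_not_sub C h1 h2 k
        have hnd := C.nd
        simp only [List.nodup_cons, List.mem_cons, List.not_mem_nil, or_false, not_or,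
          List.nodup_nil, and_true, not_false_eq_true] at hnd
        obtain ⟨⟨ab, ac, ad, ae, af⟩, ⟨bc, bd, be, bf⟩, ⟨cd, ce, cf⟩, ⟨de, df⟩, ef⟩ := hnd
        have c3 : (col a b c d e f (g k) ∪ col a b c d e f (g (k + 1))).ncard = 3 := by
          have s1 : ({e} ∪ {a, b} : Set (Fin 6)).ncard = 3 :=
            Set.ncard_eq_three.2 ⟨e, a, b, Ne.symm ae, Ne.symm be, ab, rfl⟩
          have s2 : ({f} ∪ {c, d} : Set (Fin 6)).ncard = 3 :=
            Set.ncard_eq_three.2 ⟨f, c, d, Ne.symm cf, Ne.symm df, cd, rfl⟩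
          rcases hk with ⟨e1, e2⟩ | ⟨e1, e2⟩ <;> rw [e1, e2] <;>
            rcases hxy with ⟨rfl, rfl⟩ | ⟨rfl, rfl⟩
          · exact s1
          · exact s2
          · rw [union_comm]; exact s1
          · rw [union_comm]; exact s2
        by_contra hcon
        push Not at hcon
        have h6 := Set.eq_of_subset_of_ncard_le r1 (by omega) (Set.toFinite _)
        exact r2 h6.ge
    obtain ⟨a1, a2⟩ := key k hk1
    obtain ⟨b1, b2⟩ := key (k + 3) hk2
    have hopp : pt z (u + ((k + 3 : Fin 6).val : ℝ)) = 2 * z - pt z (u + (k.val : ℝ)) := by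
      rw [← pt_three]
      rcases val_add3 k with h7 | h7
      · rw [h7]; push_cast; congr 1; ring
      · have h8 : (k.val : ℝ) = ((k + 3 : Fin 6).val : ℝ) + 3 := by rw [← h7]; push_cast; ring
        rw [h8, ← pt_six]; congr 1; ring
    have n1 : pt z (u + (k.val : ℝ)) ≠ y1 := fun h => by rw [h] at a2; omega
    have n2 : pt z (u + ((k + 3 : Fin 6).val : ℝ)) ≠ y1 := fun h => by rw [h] at b2; omega
    have q1 := a1.resolve_left n1
    have q2 := b1.resolve_left n2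
    rw [hopp, q1] at q2
    have h9 : y2 = z := by linear_combination (-1 / 2 : ℂ) * q2
    have h10 := dist_pt z (u + (k.val : ℝ))
    rw [q1, h9, dist_self] at h10
    exact zero_ne_one h10

end Vale.Agent.P032.H892
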