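import Vale.Agent.P032W.H892.Cell
import Vale.Agent.P032W.H892.Facts

/-!
# P032: no constant diametral word at a six-coloured point

`C6.no_diam` : at a six-coloured point (with connected colours) the letters `(σ k, σ (k + 3))` at the six positions
`k` cannot stay constant during a turn by 60 degrees.

Proof: with `w = τ + n` the points `X = pt (w + a) + pt (w + b) - z`, `-1 < a < 0 < b < 1`, miss the four colours
of the two arcs, so they have a list inside `{σ (n + 1), σ (n + 4)}`.  The part of this cell at distance `> 1`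
from one of the two side corners is connected and every point of it has a unit partner in the cell, so it has one
colour; the colours of the two parts differ, since there is a unit pair between them.  Both parts reach
`pt w` outside the disc about `z`, so both colours avoid the open half plane towards `pt w`; then no
colour is left for the direction `τ + 1`.
-/

open Set Filter Topology Metric

noncomputable section

namespace Vale.Agent.P032.H892

open Vale.Agent.P032.Six Vale.Agent.P032.Words Vale.Agent.P032.S5.H767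

variable {U : Fin 6 → Set ℂ} {T : ℂ → Set (Fin 6)} {z : ℂ}

/-- a colour which is present outside `D(z)` near `y = pt z u` avoids the half plane towards `y` -/
theorem dr_ct (h : Irr U T) (hct : Ctn U T z) {u θ : ℝ} {c : Fin 6}
    (hf : ∃ᶠ x in 𝓝 (pt z u), c ∈ Pal U x ∧ 1 < dist x z) (hθ : θ ∈ Dr T z c) :
    Real.cos ((θ - u) * (Real.pi / 3)) ≤ 0 := by
  by_contra hcon
  push Not at hcon
  set K := Real.cos ((θ - u) * (Real.pi / 3)) with hK
  rw [mem_dr] at hθ
  have h1 : ∀ᶠ p : ℝ × ℝ in 𝓝 ((0 : ℝ), θ), ∀ c ∈ T (po z p), ∃ Q ⊆ closure (U c), IsPreconnected Q ∧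
      z ∈ Q ∧ po z p ∈ Q := by
    have := (continuous_po z).tendsto ((0 : ℝ), θ)
    rw [po_zero] at this
    exact this.eventually hct
  have h2 : ∀ᶠ p : ℝ × ℝ in 𝓝 ((0 : ℝ), θ), K / 2 < Real.cos ((p.2 - u) * (Real.pi / 3)) :=
    (cosc u).continuousAt.eventually_const_lt (by show K / 2 < K; linarith)
  have h3 : ∀ᶠ p : ℝ × ℝ in 𝓝 ((0 : ℝ), θ), p.1 < K :=
    continuous_fst.continuousAt.eventually_lt_const hcon
  obtain ⟨p, hp, hp1, hp2, hp3⟩ := (hθ.and_eventually (h1.and (h2.and h3))).exists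
  obtain ⟨Q, hQ1, hQ2, hQ3, hQ4⟩ := hp1 c hp.2
  have h4 := sq_dist_po z p.1 p.2 u
  have h6 := hp.1
  have h7 : dist (po z p) (pt z u) < 1 := by
    have h7 : dist (po z p) (pt z u) ^ 2 < 1 := by
      rw [show (p.1, p.2) = p from rfl] at h4
      rw [h4]; nlinarith
    by_contra h8
    push Not at h8
    nlinarith
  have h8 : ∀ᶠ x in 𝓝 (pt z u), dist (po z p) x < 1 :=
    (continuous_const.dist continuous_id).continuousAt.eventually_lt_const h7
  obtain ⟨x, ⟨hx1, hx2⟩, hx3⟩ := (hf.and_eventually h8).exists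
  exact h.mx.wlemma hQ2 hQ1 hQ4 hQ3 hx3 (by rw [dist_comm]; exact hx2) hx1

theorem pt_two (z : ℂ) (w : ℝ) : Xw z w (-1, 1) = pt z w := by
  unfold Xw Xs2 pt
  simp only
  apply Complex.ext
  · simp only [Complex.add_re, Complex.sub_re, cis_re]
    have e1 : (w + -1) * (Real.pi / 3) = w * (Real.pi / 3) - Real.pi / 3 := by ring
    have e2 : (w + 1) * (Real.pi / 3) = w * (Real.pi / 3) + Real.pi / 3 := by ring
    rw [e1, e2, Real.cos_sub, Real.cos_add, Real.cos_pi_div_three]
    ring
  · simp only [Complex.add_im, Complex.sub_im, cis_im]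
    have e1 : (w + -1) * (Real.pi / 3) = w * (Real.pi / 3) - Real.pi / 3 := by ring
    have e2 : (w + 1) * (Real.pi / 3) = w * (Real.pi / 3) + Real.pi / 3 := by ring
    rw [e1, e2, Real.sin_sub, Real.sin_add, Real.cos_pi_div_three]
    ring

/-- the points of the cell are outside the disc about `z` -/
theorem cell_out {w : ℝ} {p : ℝ × ℝ} (hp : p ∈ K0) : 1 < dist (Xw z w p) z := by
  have e : dist (Xw z w p) z ^ 2 = 2 + 2 * c6 (p.2 - p.1) := by
    rw [sq_dist]
    unfold Xw Xs2 pt
    simp only [Complex.add_re, Complex.add_im, Complex.sub_re, Complex.sub_im, cis_re, cis_im]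
    have e1 : p.2 - p.1 = (w + p.2) - (w + p.1) := by ring
    rw [e1, c6_sub]
    have h1 := sc6 (w + p.1)
    have h2 := sc6 (w + p.2)
    unfold c6 s6 at *
    linear_combination h1 + h2
  obtain ⟨a, b, c, d⟩ := hp
  have h1 := c6_lt (x := p.2 - p.1) (y := 2) (by linarith) (by linarith) (by norm_num)
  have k2 : c6 2 = -1 / 2 := by
    have : (2 : ℝ) = 1 + 1 := by norm_num
    rw [this, c6_add, c6_one, s6_one]
    have : Real.sqrt 3 ^ 2 = 3 := Real.sq_sqrt (by norm_num)
    nlinarith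
  rw [k2] at h1
  have h2 := dist_nonneg (x := Xw z w p) (y := z)
  by_contra hcon
  push Not at hcon
  nlinarith

/-- the two points of the circle and the sum -/
theorem cell_pts (w a b : ℝ) : dist (Xw z w (a, b)) (pt z (w + a)) = 1 ∧ dist (Xw z w (a, b)) (pt z (w + b)) = 1 := by
  constructor
  · rw [dist_eq_norm]
    have : Xw z w (a, b) - pt z (w + a) = pt z (w + b) - z := by unfold Xw Xs2; ring
    rw [this, ← dist_eq_norm]; exact dist_pt z _
  · rw [dist_eq_norm]
    have : Xw z w (a, b) - pt z (w + b) = pt z (w + a) - z := by unfold Xw Xs2; ring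
    rw [this, ← dist_eq_norm]; exact dist_pt z _

/-- two points of the circle at an angle in `(0, 2)` -/
theorem pt_ne {u v : ℝ} (h0 : u < v) (h1 : v < u + 2) : pt z u ≠ pt z v := by
  intro h
  obtain ⟨n, hn⟩ := pt_inj h
  have h2 : (6 * n : ℝ) < 0 := by linarith
  have h3 : (-2 : ℝ) < 6 * n := by linarith
  have h4 : (n : ℝ) < 0 := by linarith
  have h5 : (-1 : ℝ) < n := by linarith
  have h6 : n < 0 := by exact_mod_cast h4
  have h7 : -1 < n := by exact_mod_cast h5
  omega

/-- a diametral word without changes -/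
structure Dm (U : Fin 6 → Set ℂ) (T : ℂ → Set (Fin 6)) (z : ℂ) (τ : ℝ) (σ : Fin 6 → Fin 6) : Prop where
  C : C6 U T z
  inj : Function.Injective σ
  nc : ∀ v ∈ Ioo τ (τ + 1), ¬ Chg U T z v
  lt : ∀ k, (SR U T z τ).1 k = (σ k, σ (k + 3))

namespace Dm

variable {τ : ℝ} {σ : Fin 6 → Fin 6} (D : Dm U T z τ σ)
include D

/-- letters on all open arcs -/
theorem lr (n : ℤ) {u : ℝ} (h1 : τ + n < u) (h2 : u < τ + n + 1) :
    LR U T z u = (σ (m6 n), σ (m6 n + 3)) ∧ LL U T z u = (σ (m6 n), σ (m6 n + 3)) := by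
  set k := m6 n with hk
  obtain ⟨q, hq⟩ : ∃ q : ℤ, n = k.val + 6 * q := ⟨n / 6, by have := m6_val n; rw [← hk] at this; omega⟩
  set v := u - 6 * q - k.val with hv
  have hn : (n : ℝ) = k.val + 6 * q := by exact_mod_cast hq
  have hv1 : v ∈ Ioo τ (τ + 1) := ⟨by linarith, by linarith⟩
  have e1 : (SR U T z v).1 = (SR U T z τ).1 := D.C.letters_const' D.nc v hv1
  have e2 : (SL U T z v).1 = (SR U T z τ).1 := D.C.letters_const D.nc v ⟨hv1.1, hv1.2.le⟩
  have e3 : LR U T z (v + k.val) = (σ k, σ (k + 3)) := (congrFun e1 k).trans (D.lt k)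
  have e4 : LL U T z (v + k.val) = (σ k, σ (k + 3)) := (congrFun e2 k).trans (D.lt k)
  have p1 : ∀ w : ℝ, ∀ m : ℤ, LR U T z (w + 6 * m) = LR U T z w := fun w m => by
    have h : Function.Periodic (LR U T z) 6 := fun t => D.C.lr_six t
    have := h.int_mul m w
    rw [mul_comm]; exact this
  have p2 : ∀ w : ℝ, ∀ m : ℤ, LL U T z (w + 6 * m) = LL U T z w := fun w m => by
    have h : Function.Periodic (LL U T z) 6 := fun t => D.C.ll_six t
    have := h.int_mul m w
    rw [mul_comm]; exact this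
  have e5 : u = v + k.val + 6 * q := by rw [hv]; ring
  rw [e5, p1, p2]
  exact ⟨e3, e4⟩

/-- the colours of an arc are missing at the points at distance one off the line -/
theorem free (n : ℤ) {u : ℝ} (h1 : τ + n < u) (h2 : u < τ + n + 1) {x : ℂ} (hd : dist x (pt z u) = 1)
    (hx : x ≠ z) (hx2 : x + z ≠ 2 * pt z u) {i : Fin 6} (hi : i = σ (m6 n) ∨ i = σ (m6 n + 3)) :
    i ∉ T x := by
  intro hi2
  obtain ⟨r, l⟩ := D.lr n h1 h2
  have e1 : ∀ᶠ v in 𝓝 u, i ∈ T (pt z v) := by
    have a1 : ∀ᶠ v in 𝓝[>] u, i ∈ T (pt z v) := (D.C.lr_spec u).mono fun v hv => by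
      rw [hv.1, r]
      rcases hi with h | h
      · exact Or.inl h
      · exact Or.inr h
    have a2 : ∀ᶠ v in 𝓝[<] u, i ∈ T (pt z v) := (D.C.ll_spec u).mono fun v hv => by
      rw [hv.1, l]
      rcases hi with h | h
      · exact Or.inl h
      · exact Or.inr h
    have a3 : i ∈ T (pt z u) := by
      have h3 := D.C.mem_R u
      rw [r] at h3
      rcases hi with h | h
      · rw [h]; exact h3.1
      · rw [h]; exact h3.2
    rw [← nhdsNE_sup_pure u, ← nhdsLT_sup_nhdsGT, eventually_sup, eventually_sup]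
    exact ⟨⟨a2, a1⟩, by simpa using a3⟩
  exact line_free D.C.irr (dist_pt z u) (ev_circle z e1) (by rw [dist_comm]; exact hd) hx hx2
    (D.C.irr.sub _ hi2)

/-- the list of a point of a cell -/
theorem cell (n : ℤ) {p : ℝ × ℝ} (hp : p ∈ K0) :
    T (Xw z (τ + n) p) ⊆ {σ (m6 n + 1), σ (m6 n + 4)} := by
  obtain ⟨a, b⟩ := p
  obtain ⟨a1, a2, b1, b2⟩ := hp
  simp only at a1 a2 b1 b2
  have hout : 1 < dist (Xw z (τ + n) (a, b)) z := cell_out ⟨a1, a2, b1, b2⟩
  have hz : Xw z (τ + n) (a, b) ≠ z := by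
    intro h
    rw [h, dist_self] at hout
    linarith
  obtain ⟨d1, d2⟩ := cell_pts (z := z) (τ + n) a b
  have hne : pt z (τ + n + a) ≠ pt z (τ + n + b) := pt_ne (by linarith) (by linarith)
  have hx1 : Xw z (τ + n) (a, b) + z ≠ 2 * pt z (τ + n + a) := by
    intro h
    apply hne
    unfold Xw Xs2 at h
    simp only at h
    linear_combination -h
  have hx2 : Xw z (τ + n) (a, b) + z ≠ 2 * pt z (τ + n + b) := by
    intro h
    apply hne
    unfold Xw Xs2 at h
    simp only at h
    linear_combination h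
  intro i hi
  have f1 := fun h => D.free (n - 1) (u := τ + n + a) (by push_cast; linarith) (by push_cast; linarith)
    d1 hz hx1 (i := i) h hi
  have f2 := fun h => D.free n (u := τ + n + b) (by linarith) (by linarith) d2 hz hx2 (i := i) h hi
  rw [m6_sub_one] at f1
  -- `σ` is onto
  obtain ⟨j, rfl⟩ := (Finite.injective_iff_surjective.1 D.inj) i
  have g1 : j ≠ m6 n - 1 := fun h => f1 (Or.inl (by rw [h]))
  have g2 : j ≠ m6 n - 1 + 3 := fun h => f1 (Or.inr (by rw [h]))
  have g3 : j ≠ m6 n := fun h => f2 (Or.inl (by rw [h]))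
  have g4 : j ≠ m6 n + 3 := fun h => f2 (Or.inr (by rw [h]))
  have key : ∀ k j : Fin 6, j ≠ k - 1 → j ≠ k - 1 + 3 → j ≠ k → j ≠ k + 3 → j = k + 1 ∨ j = k + 4 := by
    decide
  rcases key (m6 n) j g1 g2 g3 g4 with h | h
  · left; rw [h]
  · right; rw [h]; rfl

/-- **both colours** are present outside `D(z)` near `pt z (τ + n)` -/
theorem both (n : ℤ) {i : Fin 6} (hi : i = σ (m6 n + 1) ∨ i = σ (m6 n + 4)) :
    ∃ᶠ x in 𝓝 (pt z (τ + n)), i ∈ Pal U x ∧ 1 < dist x z := by
  have hX := continuous_Xw z (τ + n)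
  have h1 := mono_col D.C.irr hX ap_pre (fun p hp => hp.1) (fun p hp => D.cell n hp)
    (fun p hp => ap_partner z (τ + n) hp)
  have h2 := mono_col D.C.irr hX am_pre (fun p hp => hp.1) (fun p hp => D.cell n hp)
    (fun p hp => am_partner z (τ + n) hp)
  have hf : ∀ {A : Set (ℝ × ℝ)}, ((-1 : ℝ), (1 : ℝ)) ∈ closure A → (∀ p ∈ A, p ∈ K0) →
      (∀ p ∈ A, T (Xw z (τ + n) p) = {i}) → ∃ᶠ x in 𝓝 (pt z (τ + n)), i ∈ Pal U x ∧ 1 < dist x z := by
    intro A hA hAK hcol
    have h3 : ∃ᶠ p in 𝓝 ((-1 : ℝ), (1 : ℝ)), p ∈ A := mem_closure_iff_frequently.1 hA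
    have h4 : Tendsto (Xw z (τ + n)) (𝓝 ((-1 : ℝ), (1 : ℝ))) (𝓝 (pt z (τ + n))) := by
      have := hX.tendsto ((-1 : ℝ), (1 : ℝ))
      rwa [pt_two] at this
    refine h4.frequently (h3.mono fun p hp => ⟨D.C.irr.sub _ ?_, cell_out (hAK p hp)⟩)
    rw [hcol p hp]; rfl
  obtain ⟨p, hp, q, hq, hpq⟩ := exists_unit_pair z (τ + n)
  have hcontra : ∀ j : Fin 6, T (Xw z (τ + n) p) = {j} → T (Xw z (τ + n) q) = {j} → False := by
    intro j e1 e2
    have m1 : Xw z (τ + n) p ∈ U j := D.C.irr.mem_of_single (by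
      intro l hl; rw [e1] at hl; exact hl)
    exact D.C.irr.mx.free j _ m1 _ (D.C.irr.sub _ (by rw [e2]; rfl)) hpq
  rcases hi with hi | hi
  · rcases h1 with h1 | h1
    · exact hf corner_ap (fun p hp => hp.1) (by rw [hi]; exact h1)
    · rcases h2 with h2 | h2
      · exact hf corner_am (fun p hp => hp.1) (by rw [hi]; exact h2)
      · exact (hcontra _ (h1 p hp) (h2 q hq)).elim
  · rcases h1 with h1 | h1
    · rcases h2 with h2 | h2
      · exact (hcontra _ (h1 p hp) (h2 q hq)).elim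
      · exact hf corner_am (fun p hp => hp.1) (by rw [hi]; exact h2)
    · exact hf corner_ap (fun p hp => hp.1) (by rw [hi]; exact h1)

omit D in
theorem m6_nat (k : Fin 6) : m6 (k.val : ℤ) = k := m6_of (by omega)

/-- **No constant diametral word.** -/
theorem false_of_ctn (hct : Ctn U T z) : False := by
  obtain ⟨c, hc⟩ := dr_cover D.C.irr z (τ + 1)
  obtain ⟨j, rfl⟩ := (Finite.injective_iff_surjective.1 D.inj) c
  -- inner letters
  have inn : ∀ (m : Fin 6) (s : ℝ), 0 < s → s < 1 → j = m →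
      3 / 2 < m.val + s - 1 → m.val + s - 1 < 9 / 2 → False := by
    intro m s hs0 hs1 hj h1 h2
    subst hj
    obtain ⟨r, -⟩ := D.lr (j.val : ℤ) (u := τ + j.val + s) (by push_cast; linarith)
      (by push_cast; linarith)
    rw [m6_nat] at r
    have h3 := D.C.dir_R_in (u := τ + j.val + s) (θ := τ + 1) (by rw [r]; exact hc)
    have h4 : τ + 1 - (τ + j.val + s) = -(j.val + s - 1) := by ring
    have h5 : Real.cos ((τ + 1 - (τ + j.val + s)) * (Real.pi / 3)) < 0 := by
      refine cos_neg6 (n := -1) ?_ ?_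
      · push_cast; linarith
      · push_cast; linarith
    linarith
  -- outside colours
  have out : ∀ n : ℤ, (j = m6 n + 1 ∨ j = m6 n + 4) → (n : ℝ) < 5 / 2 → -(1 / 2) < (n : ℝ) → False := by
    intro n hj h1 h2
    have h3 := D.both n (i := σ j) (by rcases hj with h | h <;> rw [h] <;> simp)
    have h4 := dr_ct D.C.irr hct h3 hc
    have h5 : 0 < Real.cos ((τ + 1 - (τ + n)) * (Real.pi / 3)) := by
      refine cos_pos6 (n := 0) ?_ ?_
      · push_cast; linarith
      · push_cast; linarith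
    linarith
  have e0 : m6 0 = 0 := m6_nat 0
  have e2 : m6 2 = 2 := m6_nat 2
  rcases (by decide : ∀ j : Fin 6, j = 0 ∨ j = 1 ∨ j = 2 ∨ j = 3 ∨ j = 4 ∨ j = 5) j with
    h | h | h | h | h | h
  · exact out 2 (Or.inr (by rw [e2, h]; rfl)) (by norm_num) (by norm_num)
  · exact out 0 (Or.inl (by rw [e0, h]; rfl)) (by norm_num) (by norm_num)
  · exact inn 2 (3 / 4) (by norm_num) (by norm_num) h (by norm_num [h]) (by norm_num [h])
  · exact inn 3 (1 / 2) (by norm_num) (by norm_num) h (by norm_num [h]) (by norm_num [h])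
  · exact inn 4 (1 / 2) (by norm_num) (by norm_num) h (by norm_num [h]) (by norm_num [h])
  · exact inn 5 (1 / 4) (by norm_num) (by norm_num) h (by norm_num [h]) (by norm_num [h])

end Dm

/-- **No constant diametral word** during a turn by 60 degrees. -/
theorem C6.no_diam (C : C6 U T z) (hct : Ctn U T z) {τ : ℝ} {σ : Fin 6 → Fin 6}
    (inj : Function.Injective σ) (hσ : ∀ k, (SR U T z τ).1 k = (σ k, σ (k + 3)))
    (nc : ∀ v ∈ Ioo τ (τ + 1), ¬ Chg U T z v) : False :=
  Dm.false_of_ctn ⟨C, inj, nc, hσ⟩ hct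

end Vale.Agent.P032.H892
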