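import Vale.Agent.P032W.H892.Budget
import Vale.Agent.P032W.S5.H767.RawT
import Vale.Agent.P032W.H587.Gen

/-!
# P032: the circle of a two-pair centre is a word, with any special points (irredundant frame)

`Og` : the generic points of `S(z)` (constant palette near the point) with their letter; `Xg` : the closures.
`Ctr.word : WordW (Xg ..)` for every centre with the pairs `ab | cd`, without any bound on the palettes on `S(z)`.
`Ctr.shell` : the colours of a letter are absent at the corners of rhombi.  `Ctr.nb_not_sub` : the neighbours.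
-/

open Set Filter Topology Metric

noncomputable section

namespace Vale.Agent.P032.H892

open Vale.Agent.P032.Six Vale.Agent.P032.Words Vale.Agent.P032.S5.H767

variable {U : Fin 6 → Set ℂ} {T : ℂ → Set (Fin 6)} {z : ℂ} {a b c d e f : Fin 6}

/-- generic points of a letter -/
def Og (T : ℂ → Set (Fin 6)) (z : ℂ) (a b c d e f : Fin 6) : Fin 4 → Set ℝ :=
  ![{u | (∀ᶠ v in 𝓝 u, T (pt z v) = T (pt z u)) ∧ e ∈ T (pt z u)},
    {u | (∀ᶠ v in 𝓝 u, T (pt z v) = T (pt z u)) ∧ f ∈ T (pt z u) ∧ e ∉ T (pt z u)},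
    {u | (∀ᶠ v in 𝓝 u, T (pt z v) = T (pt z u)) ∧ T (pt z u) = {a, b}},
    {u | (∀ᶠ v in 𝓝 u, T (pt z v) = T (pt z u)) ∧ T (pt z u) = {c, d}}]

/-- closures of the generic points of a letter -/
def Xg (T : ℂ → Set (Fin 6)) (z : ℂ) (a b c d e f : Fin 6) (l : Fin 4) : Set ℝ :=
  closure (Og T z a b c d e f l)

theorem Og_const {l : Fin 4} {u : ℝ} (h : u ∈ Og T z a b c d e f l) :
    ∀ᶠ v in 𝓝 u, T (pt z v) = T (pt z u) := by
  fin_cases l
  · exact h.1
  · exact h.1
  · exact h.1
  · exact h.1

theorem Og_col {l : Fin 4} {u : ℝ} (h : u ∈ Og T z a b c d e f l) :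
    col a b c d e f l ⊆ T (pt z u) := by
  fin_cases l
  · exact singleton_subset_iff.2 h.2
  · exact singleton_subset_iff.2 h.2.1
  · exact h.2.ge
  · exact h.2.ge

theorem Og_open (l : Fin 4) : IsOpen (Og T z a b c d e f l) := by
  have key : ∀ Q : Set (Fin 6) → Prop, IsOpen {u : ℝ | (∀ᶠ v in 𝓝 u, T (pt z v) = T (pt z u)) ∧
      Q (T (pt z u))} := by
    intro Q
    rw [isOpen_iff_mem_nhds]
    rintro u ⟨h1, h2⟩
    filter_upwards [eventually_eventually_nhds.2 h1, h1] with v hv hv'
    refine ⟨?_, ?_⟩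
    · filter_upwards [hv] with w hw
      rw [hw, hv']
    · rw [hv']; exact h2
  fin_cases l
  · exact key fun P => e ∈ P
  · exact key fun P => f ∈ P ∧ e ∉ P
  · exact key fun P => P = {a, b}
  · exact key fun P => P = {c, d}

theorem Xg_sub_Xs (h : Irr U T) {l : Fin 4} : Xg T z a b c d e f l ⊆ Xs T z a b c d e f l := by
  have h1 : IsClosed (Xs T z a b c d e f l) := (Lt_closed h l).preimage (continuous_pt z)
  refine closure_minimal (fun u hu => ?_) h1
  fin_cases l
  · exact ⟨dist_pt z u, hu.2⟩
  · exact ⟨dist_pt z u, hu.2.1⟩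
  · refine subset_closure (mem_Ex_of z ?_)
    filter_upwards [hu.1] with v hv
    rw [hv]; exact hu.2
  · refine subset_closure (mem_Ex_of z ?_)
    filter_upwards [hu.1] with v hv
    rw [hv]; exact hu.2

theorem Xg_col (h : Irr U T) {l : Fin 4} {u : ℝ} (hu : u ∈ Xg T z a b c d e f l) :
    col a b c d e f l ⊆ T (pt z u) := Lt_col h (Xg_sub_Xs h hu)

theorem col_nd (hn : [a, b, c, d, e, f].Nodup) {l m : Fin 4} (hlm : l ≠ m) {s : Fin 6}
    (hs : s ∈ col a b c d e f l) (ht : s ∈ col a b c d e f m) : False := by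
  simp only [List.nodup_cons, List.mem_cons, List.not_mem_nil, or_false, not_or, List.nodup_nil,
    and_true, not_false_eq_true] at hn
  obtain ⟨⟨ab, ac, ad, ae, af⟩, ⟨bc, bd, be, bf⟩, ⟨cd, ce, cf⟩, ⟨de, df⟩, ef⟩ := hn
  fin_cases l <;> fin_cases m <;>
    simp only [col, Fin.zero_eta, Fin.mk_one, Fin.reduceFinMk, Matrix.cons_val,
      Matrix.cons_val_zero, Matrix.cons_val_one, mem_singleton_iff, mem_insert_iff, ne_eq,
      not_true_eq_false, not_false_eq_true] at hs ht hlm
  all_goals first
    | (exact hlm rfl)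
    | (subst hs; first | (exact absurd ht (by assumption)) | (exact absurd ht.symm (by assumption)))
    | (subst hs; rcases ht with ht | ht <;>
        first | (exact absurd ht (by assumption)) | (exact absurd ht.symm (by assumption)))
    | (subst ht; rcases hs with hs | hs <;>
        first | (exact absurd hs (by assumption)) | (exact absurd hs.symm (by assumption)))
    | (rcases hs with rfl | rfl <;> rcases ht with ht | ht <;>
        first | (exact absurd ht (by assumption)) | (exact absurd ht.symm (by assumption)))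

/-- the circle near a generic point -/
theorem Og_circle {l : Fin 4} {s : ℝ} (hs : s ∈ Og T z a b c d e f l) {i : Fin 6}
    (hi : i ∈ col a b c d e f l) : ∀ᶠ q in 𝓝[sphere z 1] (pt z s), i ∈ T q := by
  refine ev_circle z ?_
  filter_upwards [Og_const hs] with v hv
  rw [hv]; exact Og_col hs hi

/-- **Shell**: the colours of a generic letter are absent at the corner of a rhombus -/
theorem shell (h : Irr U T) {l : Fin 4} {s : ℝ} (hs : s ∈ Og T z a b c d e f l) {y : ℂ}
    (hy : dist y z = 1) (h1 : y ≠ pt z s) (h2 : pt z s + y ≠ 2 * z) {i : Fin 6}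
    (hi : i ∈ col a b c d e f l) : i ∉ T (pt z s + y - z) := by
  intro hc
  refine line_free h (dist_pt z s) (t := i) (v := pt z s + y - z) (Og_circle hs hi) ?_ ?_ ?_
    (h.sub _ hc)
  · rw [dist_eq_norm] at hy ⊢
    rw [← hy, ← norm_neg]; congr 1; ring
  · intro h3; exact h2 (by linear_combination h3)
  · intro h3; exact h1 (by linear_combination h3)

/-- **Antipodes**, without any bound on the palettes: no exact `P`-arcs near `y` and exact `Q`-arcs near the antipode
of `y` if `T z ⊆ P ∪ Q` -/
theorem no_antipodal (h : Irr U T) {y : ℂ} {P Q : Set (Fin 6)} (hPQ : T z ⊆ P ∪ Q)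
    (h1 : y ∈ closure (Ex T z P)) (h2 : 2 * z - y ∈ closure (Ex T z Q)) : False := by
  have hcont : Tendsto (fun w : ℂ × ℂ => w.1 + w.2 - z) (𝓝 y ×ˢ 𝓝 (2 * z - y)) (𝓝 z) := by
    have hc : Continuous fun w : ℂ × ℂ => w.1 + w.2 - z := by fun_prop
    have h2 := hc.tendsto (y, 2 * z - y)
    rw [nhds_prod_eq] at h2
    have e1 : y + (2 * z - y) - z = z := by ring
    simp only [e1] at h2
    exact h2
  obtain ⟨V1, hV1, V2, hV2, hVV⟩ := eventually_prod_iff.1 (hcont.eventually (h.nhd z))
  obtain ⟨p, hp1, hp2⟩ := mem_closure_iff_nhds.1 h1 _ hV1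
  obtain ⟨w', hw'V, hw'⟩ := mem_closure_iff_nhds.1 h2 _ (eventually_eventually_nhds.2 hV2)
  have hs : {q | q ∈ Ex T z Q ∧ V2 q} ∈ 𝓝[sphere z 1] w' :=
    (ex_open hw').and (mem_nhdsWithin_of_mem_nhds hw'V)
  obtain ⟨q, ⟨hqE, hqV⟩, hqz, hqy, hqy2, -⟩ := exists_generic (y := p) hw'.1 hs
  have hsub : T (p + q - z) ⊆ T z := hVV hp1 hqV
  have d1 : dist p (p + q - z) = 1 := by
    rw [dist_eq_norm] at hqz ⊢
    rw [← hqz, ← norm_neg]; congr 1; ring
  have d2 : dist q (p + q - z) = 1 := by
    have := hp2.1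
    rw [dist_eq_norm] at this ⊢
    rw [← this, ← norm_neg]; congr 1; ring
  have n1 : p + q - z ≠ z := fun h1 => hqy2 (by linear_combination h1)
  obtain ⟨i, hi⟩ := h.ne (p + q - z)
  rcases hPQ (hsub hi) with h3 | h3
  · refine line_free h hp2.1 (t := i) ?_ d1 n1 (fun h4 => hqy (by linear_combination h4)) (h.sub _ hi)
    filter_upwards [hp2.2] with r hr
    rw [hr]; exact h3
  · refine line_free h hqz (t := i) ?_ d2 n1 (fun h4 => hqy (by linear_combination -h4)) (h.sub _ hi)
    filter_upwards [hqE.2] with r hr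
    rw [hr]; exact h3

/-- **The word of a centre.** -/
theorem Ctr.word (C : Ctr U T z a b c d e f) : WordW (Xg T z a b c d e f) := by
  have hn := C.nd
  simp only [List.nodup_cons, List.mem_cons, List.not_mem_nil, or_false, not_or, List.nodup_nil,
    and_true, not_false_eq_true] at hn
  obtain ⟨⟨ab, ac, ad, ae, af⟩, ⟨bc, bd, be, bf⟩, ⟨cd, ce, cf⟩, ⟨de, df⟩, ef⟩ := hn
  refine WordW.of_open (fun l => Og_open l) ?_ ?_ ?_ ?_ ?_
  · -- dense
    refine (C.irr.dense_LcT (continuous_pt z)).mono fun u hu => ?_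
    have hu : ∀ᶠ v in 𝓝 u, T (pt z v) = T (pt z u) := hu
    rw [mem_iUnion]
    by_cases he : e ∈ T (pt z u)
    · exact ⟨0, hu, he⟩
    by_cases hf : f ∈ T (pt z u)
    · exact ⟨1, hu, hf, he⟩
    have hsub : T (pt z u) ⊆ T z := by
      intro i hi
      by_contra hcon
      rcases C.miss hcon with rfl | rfl
      · exact he hi
      · exact hf hi
    rcases C.pairs _ (dist_pt z u) (ev_circle z hu) hsub with h | h
    · exact ⟨2, hu, h⟩
    · exact ⟨3, hu, h⟩
  · -- disjoint
    intro l m hlm u hu hu'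
    have key : ∀ l m : Fin 4, l < m → u ∈ Og T z a b c d e f l → u ∈ Og T z a b c d e f m →
        False := by
      intro l m hlm hu hu'
      fin_cases l <;> fin_cases m <;> first
        | exact absurd hlm (by decide)
        | exact hu'.2.2 hu.2
        | (have h1 := hu'.2; have h2 := hu.2; rw [h1] at h2
           simp only [mem_insert_iff, mem_singleton_iff] at h2
           rcases h2 with h2 | h2
           · first | exact absurd h2.symm (by assumption) | exact absurd h2 (by assumption)
           · first | exact absurd h2.symm (by assumption) | exact absurd h2 (by assumption))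
        | (have h1 := hu'.2; have h2 := hu.2.1; rw [h1] at h2
           simp only [mem_insert_iff, mem_singleton_iff] at h2
           rcases h2 with h2 | h2
           · first | exact absurd h2.symm (by assumption) | exact absurd h2 (by assumption)
           · first | exact absurd h2.symm (by assumption) | exact absurd h2 (by assumption))
        | (have h1 := hu'.2; have h2 : a ∈ T (pt z u) := by rw [hu.2]; exact Or.inl rfl
           rw [h1] at h2
           simp only [mem_insert_iff, mem_singleton_iff] at h2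
           rcases h2 with h2 | h2
           · exact absurd h2 (by assumption)
           · exact absurd h2 (by assumption))
    rcases lt_or_gt_of_ne hlm with h1 | h1
    · exact key l m h1 hu hu'
    · exact key m l h1 hu' hu
  · -- periodic
    have key : ∀ Q : Set (Fin 6) → Prop, ∀ u : ℝ,
        ((∀ᶠ v in 𝓝 (u + 6), T (pt z v) = T (pt z (u + 6))) ∧ Q (T (pt z (u + 6)))) ↔
        ((∀ᶠ v in 𝓝 u, T (pt z v) = T (pt z u)) ∧ Q (T (pt z u))) := by
      intro Q u
      rw [pt_six]
      refine and_congr_left fun _ => ?_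
      have h1 : Filter.map (fun v : ℝ => v + 6) (𝓝 u) = 𝓝 (u + 6) := map_add_right_nhds 6 u
      rw [← h1, eventually_map]
      refine eventually_congr (Eventually.of_forall fun v => ?_)
      show T (pt z (v + 6)) = T (pt z u) ↔ T (pt z v) = T (pt z u)
      rw [pt_six]
    intro l u
    fin_cases l
    · exact key (fun P => e ∈ P) u
    · exact key (fun P => f ∈ P ∧ e ∉ P) u
    · exact key (fun P => P = {a, b}) u
    · exact key (fun P => P = {c, d}) u
  · -- sixty
    intro l u hu hu'
    obtain ⟨i, hi⟩ := col_nonempty (a := a) (b := b) (c := c) (d := d) (e := e) (f := f) l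
    obtain ⟨h1, h2⟩ := tri (dist_pt z u) (dist_pt z (u + 1))
    refine line_free C.irr (dist_pt z u) (t := i) (Og_circle hu hi) (dist_pt_one z u)
      (fun h => h1 h.symm) (fun h => h2 (by rw [← h]; ring)) (C.irr.sub _ (Og_col hu' hi))
  · -- antipodes
    intro u hu hu'
    have k1 : pt z u ∈ closure (Ex T z {a, b}) := Xg_sub_Xs C.irr (l := 2) hu
    have k2 : pt z (u + 3) ∈ closure (Ex T z {c, d}) := Xg_sub_Xs C.irr (l := 3) hu'
    rw [pt_three] at k2
    refine no_antipodal C.irr (fun i hi => ?_) k1 k2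
    rw [C.pal] at hi
    rcases hi with rfl | rfl | hi
    · exact Or.inl (Or.inl rfl)
    · exact Or.inl (Or.inr rfl)
    · exact Or.inr hi

/-- **Neighbours**: if the two neighbours of `y` on `S(z)` are in the closures of the generic points of two letters
then `y` has a colour outside these letters -/
theorem nb_not_sub (h : Irr U T) {l m : Fin 4} {u : ℝ} (h1 : u ∈ Xg T z a b c d e f l)
    (h2 : u + 2 ∈ Xg T z a b c d e f m) :
    ¬ T (pt z (u + 1)) ⊆ col a b c d e f l ∪ col a b c d e f m := by
  intro hsub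
  obtain ⟨off1, off2⟩ := pt_off z u
  have hc : Continuous fun w : ℝ × ℝ => pt z w.1 + pt z w.2 - z :=
    (((continuous_pt z).comp continuous_fst).add ((continuous_pt z).comp continuous_snd)).sub
      continuous_const
  have e1 : pt z u + pt z (u + 2) - z = pt z (u + 1) := by rw [pt_sum]; ring
  have hcont := hc.tendsto (u, u + 2)
  rw [nhds_prod_eq] at hcont
  simp only [e1] at hcont
  have n1 : ∀ᶠ w : ℝ × ℝ in 𝓝 u ×ˢ 𝓝 (u + 2), pt z w.1 + pt z w.2 - z ≠ z := by
    have hne : pt z (u + 1) ≠ z := by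
      intro h; have := dist_pt z (u + 1); rw [h, dist_self] at this; exact zero_ne_one this
    exact hcont.eventually (isOpen_compl_singleton.mem_nhds hne)
  have n2 : ∀ᶠ w : ℝ × ℝ in 𝓝 u ×ˢ 𝓝 (u + 2), pt z w.2 - pt z w.1 ≠ 0 := by
    have hc2 : Continuous fun w : ℝ × ℝ => pt z w.2 - pt z w.1 :=
      ((continuous_pt z).comp continuous_snd).sub ((continuous_pt z).comp continuous_fst)
    have hcont2 := hc2.tendsto (u, u + 2)
    rw [nhds_prod_eq] at hcont2
    exact hcont2.eventually (isOpen_compl_singleton.mem_nhds (sub_ne_zero.2 off1))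
  obtain ⟨V1, hV1, V2, hV2, hVV⟩ := eventually_prod_iff.1
    (((hcont.eventually (h.nhd (pt z (u + 1)))).and n1).and n2)
  obtain ⟨s, hs1, hs2⟩ := mem_closure_iff_nhds.1 h1 _ hV1
  obtain ⟨t, ht1, ht2⟩ := mem_closure_iff_nhds.1 h2 _ hV2
  obtain ⟨⟨k1, k2⟩, k3⟩ := hVV hs1 ht1
  obtain ⟨i, hi⟩ := h.ne (pt z s + pt z t - z)
  rcases hsub (k1 hi) with h3 | h3
  · exact shell h hs2 (dist_pt z t) (fun h4 => k3 (by rw [h4]; ring))
      (fun h4 => k2 (by linear_combination h4)) h3 hi
  · have e2 : pt z s + pt z t - z = pt z t + pt z s - z := by ring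
    rw [e2] at hi
    exact shell h ht2 (dist_pt z s) (fun h4 => k3 (by rw [h4]; ring))
      (fun h4 => k2 (by linear_combination h4)) h3 hi

end Vale.Agent.P032.H892
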