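import Vale.Agent.P032W.H892.Circ

/-!
# P032: named events on the circle of a two-pair centre

`WordW.events` : with finitely many named events `i : ι` (time `τ i` in `(u0, u0 + 1)`, position `κ i`), a predicate
`I` of (hexagon, set of past events) which survives single steps holds after the full turn by 60 degrees.
-/

open Set Filter Topology

namespace Vale.Agent.P032.H892

open Vale.Agent.P032.Words

section
variable {ι : Type} [Fintype ι] [DecidableEq ι]

open Classical in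
/-- the events before the time `u`, and those of the time `u` at the positions in `A` -/
noncomputable def past (τ : ι → ℝ) (κ : ι → Fin 6) (u : ℝ) (A : Finset (Fin 6)) : Finset ι :=
  Finset.univ.filter fun i => τ i < u ∨ (τ i = u ∧ κ i ∈ A)

theorem mem_past {τ : ι → ℝ} {κ : ι → Fin 6} {u : ℝ} {A : Finset (Fin 6)} {i : ι} :
    i ∈ past τ κ u A ↔ τ i < u ∨ (τ i = u ∧ κ i ∈ A) := by simp [past]

theorem past_mono {τ : ι → ℝ} {κ : ι → Fin 6} {u : ℝ} {A B : Finset (Fin 6)} (h : A ⊆ B) :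
    past τ κ u A ⊆ past τ κ u B := by
  intro i hi
  rw [mem_past] at hi ⊢
  exact hi.imp_right fun h' => ⟨h'.1, h h'.2⟩

theorem past_left (τ : ι → ℝ) (κ : ι → Fin 6) (u : ℝ) :
    ∀ᶠ v in 𝓝[<] u, past τ κ v ∅ = past τ κ u ∅ := by
  have h1 : ∀ᶠ v in 𝓝[<] u, ∀ i : ι, (τ i < v ↔ τ i < u) := by
    rw [eventually_all]
    intro i
    rcases lt_or_ge (τ i) u with h | h
    · filter_upwards [Ioo_mem_nhdsLT h] with v hv
      exact ⟨fun _ => h, fun _ => hv.1⟩
    · filter_upwards [self_mem_nhdsWithin] with v hv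
      exact ⟨fun h' => absurd (h'.trans hv) (not_lt.2 h), fun h' => absurd h' (not_lt.2 h)⟩
  filter_upwards [h1] with v hv
  ext i
  rw [mem_past, mem_past, hv i]
  simp

theorem past_right (τ : ι → ℝ) (κ : ι → Fin 6) (u : ℝ) :
    ∀ᶠ v in 𝓝[>] u, past τ κ v ∅ = past τ κ u Finset.univ := by
  have h1 : ∀ᶠ v in 𝓝[>] u, ∀ i : ι, (τ i < v ↔ τ i ≤ u) := by
    rw [eventually_all]
    intro i
    rcases lt_or_ge u (τ i) with h | h
    · filter_upwards [Ioo_mem_nhdsGT h] with v hv
      exact ⟨fun h' => absurd (h'.trans hv.2) (lt_irrefl _), fun h' => absurd h (not_lt.2 h')⟩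
    · filter_upwards [self_mem_nhdsWithin] with v hv
      exact ⟨fun _ => h, fun _ => lt_of_le_of_lt h hv⟩
  filter_upwards [h1] with v hv
  ext i
  rw [mem_past, mem_past, hv i]
  simp [le_iff_lt_or_eq]

end

namespace WordW

variable {X : Fin 4 → Set ℝ} {ι : Type} [Fintype ι] [DecidableEq ι]

/-- **The event theorem.** -/
theorem events (w : WordW X) {u0 : ℝ} {h0 : Hx} (hp : Pure (pos X) h0 u0) {τ : ι → ℝ}
    {κ : ι → Fin 6} (hτ : ∀ i, u0 < τ i ∧ τ i < u0 + 1) {I : Hx → Finset ι → Prop} (hI : I h0 ∅)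
    (hstep : ∀ u ∈ Ioo u0 (u0 + 1), ∀ h h', Occ (pos X) (𝓝[<] u) h → Occ (pos X) (𝓝[>] u) h' →
      ∀ A B : Finset (Fin 6), Disjoint A B → B.Nonempty → (∀ k ∈ A, h k ≠ h' k) →
        (∀ k ∈ B, h k ≠ h' k) → Leg4 (mix h h' A) → Leg4 (mix h h' (A ∪ B)) → IsStep h h' B →
        I (mix h h' A) (past τ κ u A) → I (mix h h' (A ∪ B)) (past τ κ u (A ∪ B)))
    (hidle : ∀ u ∈ Ioo u0 (u0 + 1), ∀ h h', Occ (pos X) (𝓝[<] u) h → Occ (pos X) (𝓝[>] u) h' →
      I h' (past τ κ u (Finset.univ.filter fun k => h k ≠ h' k)) →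
      I h' (past τ κ u Finset.univ)) : I (rot h0) Finset.univ := by
  have key := w.loop (S := Finset ι) (s := fun v => past τ κ v ∅) (sl := fun u => past τ κ u ∅)
    (sr := fun u => past τ κ u Finset.univ) (I := I) hp (fun u _ => past_left τ κ u)
    (fun u _ => past_right τ κ u) ?_ ?_
  · have e : past τ κ (u0 + 1) ∅ = Finset.univ := by
      ext i
      rw [mem_past]
      simp [(hτ i).2]
    rw [e] at key
    exact key
  · have e : past τ κ u0 Finset.univ = ∅ := by
      ext i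
      rw [mem_past]
      have := (hτ i).1
      simp [this.ne', this.le]
    rw [e]
    exact hI
  · intro u hu h h' hh hh' hI'
    exact hidle u hu h h' hh hh' (w.path hh hh' (σ := fun A => past τ κ u A) hI'
      (fun A B a1 a2 a3 a4 a5 a6 a7 a8 => hstep u hu h h' hh hh' A B a1 a2 a3 a4 a5 a6 a7 a8))

end WordW

/-- the time of a point of the circle, relative to the base time `u0` -/
noncomputable def tau (u0 e : ℝ) : ℝ := u0 + Int.fract (e - u0)

/-- the position of a point of the circle -/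
noncomputable def kap (u0 e : ℝ) : Fin 6 :=
  ⟨(⌊e - u0⌋ % 6).toNat, by
    have h1 := Int.emod_nonneg ⌊e - u0⌋ (by norm_num : (6 : ℤ) ≠ 0)
    have h2 := Int.emod_lt_of_pos ⌊e - u0⌋ (by norm_num : (0 : ℤ) < 6)
    omega⟩

theorem tau_mem {u0 e : ℝ} (h : ∀ n : ℤ, u0 + n ≠ e) : u0 < tau u0 e ∧ tau u0 e < u0 + 1 := by
  unfold tau
  have h1 := Int.fract_nonneg (e - u0)
  have h2 := Int.fract_lt_one (e - u0)
  refine ⟨?_, by linarith⟩
  rcases h1.lt_or_eq with h3 | h3
  · linarith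
  · exfalso
    refine h ⌊e - u0⌋ ?_
    have := Int.floor_add_fract (e - u0)
    linarith

theorem tau_kap {u0 u e : ℝ} (hu : u ∈ Ioo u0 (u0 + 1)) {k : Fin 6} {n : ℤ}
    (h : u + (k.val : ℝ) = e + 6 * n) : tau u0 e = u ∧ kap u0 e = k := by
  have e1 : e - u0 = ((k.val : ℤ) - 6 * n : ℤ) + (u - u0) := by push_cast; linarith
  have hf : ⌊e - u0⌋ = (k.val : ℤ) - 6 * n := by
    rw [e1, Int.floor_intCast_add]
    have : ⌊u - u0⌋ = 0 := by
      rw [Int.floor_eq_zero_iff]
      exact ⟨by linarith [hu.1], by linarith [hu.2]⟩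
    rw [this, add_zero]
  constructor
  · unfold tau Int.fract
    rw [hf, e1]; push_cast; ring
  · apply Fin.ext
    show (⌊e - u0⌋ % 6).toNat = k.val
    rw [hf]
    have := k.isLt
    omega

end Vale.Agent.P032.H892
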