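import Vale.Agent.P032W.H892.SixEv

/-!
# P032: the first change of the letters after a given time, and runs with a second monitor

* `C6.first_change` : after a time `a` there is a first time at which some letter changes,
* `C6.letters_const` : without changes on `(a, b)` the letters are those of `a`; `C6.arc_const` : on the open arcs
  the two letters are carried, the inner one is absent outside, the outer one is absent inside,
* `C6.run6m` : induction over an interval of times with a second monitor,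
* `C6.run6f` : the second monitor is: has some letter changed since `a`?
-/

open Set Filter Topology Metric

noncomputable section

namespace Vale.Agent.P032.H892

open Vale.Agent.P032.Six Vale.Agent.P032.Words Vale.Agent.P032.S5.H767

variable {U : Fin 6 → Set ℂ} {T : ℂ → Set (Fin 6)} {z : ℂ}

/-- some letter changes at the time `u` -/
def Chg (U : Fin 6 → Set ℂ) (T : ℂ → Set (Fin 6)) (z : ℂ) (u : ℝ) : Prop := (SL U T z u).1 ≠ (SR U T z u).1

namespace C6

variable (C : C6 U T z)
include C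

theorem no_chg_right (u : ℝ) : ∀ᶠ v in 𝓝[>] u, ¬ Chg U T z v := by
  filter_upwards [C.ev_right u] with v hv hc
  exact hc (by rw [hv.1, hv.2])

theorem no_chg_left (u : ℝ) : ∀ᶠ v in 𝓝[<] u, ¬ Chg U T z v := by
  filter_upwards [C.ev_left u] with v hv hc
  exact hc (by rw [hv.1, hv.2])

/-- **The first change** after `a` -/
theorem first_change {a b : ℝ} (hab : a < b) (hb : Chg U T z b) :
    ∃ u, a < u ∧ u ≤ b ∧ Chg U T z u ∧ ∀ v ∈ Ioo a u, ¬ Chg U T z v := by
  set S := {u | a < u ∧ Chg U T z u} with hS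
  have hbd : BddBelow S := ⟨a, fun u hu => hu.1.le⟩
  have hne : S.Nonempty := ⟨b, hab, hb⟩
  set t := sInf S with ht
  have h1 : a ≤ t := le_csInf hne fun u hu => hu.1.le
  have htb : t ≤ b := csInf_le hbd ⟨hab, hb⟩
  -- `t` is attained
  have htS : t ∈ S := by
    by_contra hcon
    obtain ⟨w, hw, hs⟩ := (mem_nhdsGT_iff_exists_Ioo_subset (a := t)).1 (C.no_chg_right t)
    have hw : t < w := hw
    obtain ⟨u, hu, huw⟩ := exists_lt_of_csInf_lt hne (show sInf S < w from hw)
    have htu : t ≤ u := csInf_le hbd hu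
    rcases htu.lt_or_eq with h2 | h2
    · exact hs ⟨h2, huw⟩ hu.2
    · exact hcon (h2 ▸ hu)
  exact ⟨t, htS.1, htb, htS.2, fun v hv hc => absurd (csInf_le hbd (show v ∈ S from ⟨hv.1, hc⟩))
    (not_le.2 hv.2)⟩

/-- letters stay constant if there is no change -/
theorem letters_const {a b : ℝ} (h : ∀ v ∈ Ioo a b, ¬ Chg U T z v) :
    ∀ u ∈ Ioc a b, (SL U T z u).1 = (SR U T z a).1 := by
  intro u hu
  refine C.run6 (I := fun s => s.1 = (SR U T z a).1) hu.1 rfl fun v hv hs => ?_
  have h1 := h v ⟨hv.1, lt_of_lt_of_le hv.2 hu.2⟩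
  unfold Chg at h1
  rw [not_not] at h1
  rw [← h1]; exact hs

theorem letters_const' {a b : ℝ} (h : ∀ v ∈ Ioo a b, ¬ Chg U T z v) :
    ∀ u ∈ Ioo a b, (SR U T z u).1 = (SR U T z a).1 := by
  intro u hu
  have h1 := h u hu
  unfold Chg at h1
  rw [not_not] at h1
  rw [← h1]; exact C.letters_const h u ⟨hu.1, hu.2.le⟩

/-- the open arcs on which the letters are constant -/
theorem arc_const {a b : ℝ} (h : ∀ v ∈ Ioo a b, ¬ Chg U T z v) {u : ℝ} (hu : u ∈ Ioo a b) (k : Fin 6) :
    ((SR U T z a).1 k).1 ∈ T (pt z (u + k.val)) ∧ ((SR U T z a).1 k).2 ∈ T (pt z (u + k.val)) ∧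
    OutF U z (pt z (u + k.val)) ((SR U T z a).1 k).1 ∧ InF U z (pt z (u + k.val)) ((SR U T z a).1 k).2 := by
  have hab : a < b := hu.1.trans hu.2
  have e : LR U T z (u + k.val) = (SR U T z a).1 k := congrFun (C.letters_const' h u hu) k
  rw [← e]
  exact ⟨(C.mem_R _).1, (C.mem_R _).2, (C.sided_R _).1, (C.sided_R _).2⟩

/-- **Induction over an interval of times with a second monitor.** -/
theorem run6m {S : Type} {σ σl σr : ℝ → S} {I : St6 → S → Prop} {a b : ℝ} (hab : a < b)
    (hl : ∀ u ∈ Ioc a b, ∀ᶠ v in 𝓝[<] u, σ v = σl u) (hr : ∀ u ∈ Ico a b, ∀ᶠ v in 𝓝[>] u, σ v = σr u)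
    (h0 : I (SR U T z a) (σr a))
    (hstep : ∀ u ∈ Ioo a b, I (SL U T z u) (σl u) → I (SR U T z u) (σr u)) :
    I (SL U T z b) (σl b) := by
  have key := run (J := Empty) (Λ := Unit) (X := fun _ _ => univ) (s := fun v => (SR U T z v, σ v))
    (sl := fun v => (SL U T z v, σl v)) (sr := fun v => (SR U T z v, σr v)) (I := fun _ s => I s.1 s.2) hab
    (fun u hu => ((C.ev_left u).and (hl u hu)).mono fun v hv => Prod.ext hv.1.1 hv.2)
    (fun u hu => ((C.ev_right u).and (hr u hu)).mono fun v hv => Prod.ext hv.1.1 hv.2)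
    (fun _ _ => h0) (fun u hu h1 _ _ => hstep u hu (h1 (fun e => e.elim) ?_)) (fun e => e.elim) ?_
  · exact key
  · exact (Eventually.of_forall fun v j => j.elim).frequently
  · exact (Eventually.of_forall fun v j => j.elim).frequently

/-- **Induction with the flag `some letter has changed since a`.**  In the step at the time `u` the flag `false`
means that no letter has changed on `(a, u)`. -/
theorem run6f {I : St6 → Prop → Prop} {a b : ℝ} (hab : a < b) (h0 : I (SR U T z a) False)
    (hstep : ∀ u ∈ Ioo a b, I (SL U T z u) (∃ v ∈ Ioo a u, Chg U T z v) →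
      I (SR U T z u) (∃ v ∈ Ioc a u, Chg U T z v)) :
    I (SL U T z b) (∃ v ∈ Ioo a b, Chg U T z v) := by
  have key := C.run6m (S := Prop) (σ := fun u => ∃ v ∈ Ioo a u, Chg U T z v)
    (σl := fun u => ∃ v ∈ Ioo a u, Chg U T z v) (σr := fun u => ∃ v ∈ Ioc a u, Chg U T z v)
    (I := I) hab ?_ ?_ ?_ hstep
  · exact key
  · intro u hu
    obtain ⟨w, hw, hs⟩ := (mem_nhdsLT_iff_exists_Ioo_subset (a := u)).1 (C.no_chg_left u)
    have hw : w < u := hw
    filter_upwards [Ioo_mem_nhdsLT hw] with v hv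
    refine propext ⟨?_, ?_⟩
    · rintro ⟨x, hx, hc⟩
      exact ⟨x, ⟨hx.1, hx.2.trans hv.2⟩, hc⟩
    · rintro ⟨x, hx, hc⟩
      refine ⟨x, ⟨hx.1, ?_⟩, hc⟩
      by_contra hcon
      push Not at hcon
      exact hs ⟨lt_of_lt_of_le hv.1 hcon, hx.2⟩ hc
  · intro u hu
    obtain ⟨w, hw, hs⟩ := (mem_nhdsGT_iff_exists_Ioo_subset (a := u)).1 (C.no_chg_right u)
    have hw : u < w := hw
    filter_upwards [Ioo_mem_nhdsGT hw] with v hv
    refine propext ⟨?_, ?_⟩
    · rintro ⟨x, hx, hc⟩
      refine ⟨x, ⟨hx.1, ?_⟩, hc⟩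
      by_contra hcon
      push Not at hcon
      exact hs ⟨hcon, hx.2.trans hv.2⟩ hc
    · rintro ⟨x, hx, hc⟩
      exact ⟨x, ⟨hx.1, lt_of_le_of_lt hx.2 hv.1⟩, hc⟩
  · have e : (∃ v ∈ Ioc a a, Chg U T z v) = False := by
      simp
    show I (SR U T z a) (∃ v ∈ Ioc a a, Chg U T z v)
    rw [e]; exact h0

/-- changes are periodic -/
theorem chg_succ (u : ℝ) : Chg U T z (u + 1) ↔ Chg U T z u := by
  unfold Chg
  rw [C.sl_succ, C.sr_succ]
  unfold sh6
  simp only
  constructor
  · intro h1 h2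
    exact h1 (by rw [h2])
  · intro h1 h2
    refine h1 (funext fun k => ?_)
    have := congrFun h2 (k - 1)
    simpa using this

end C6

end Vale.Agent.P032.H892
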