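import Vale.Agent.P032W.H892.SixFst
import Vale.Agent.P032W.H820.Hull
import Vale.Agent.P032W.H355.LFcirc

/-!
# P032: the structure `C6` in the locally finite frame
-/

open Set Filter Topology Metric

noncomputable section

namespace Vale.Agent.P032.H892

open Vale.Agent.P032.Six Vale.Agent.P032.Words Vale.Agent.P032.S5.H767

variable {U : Fin 6 → Set ℂ} {T : ℂ → Set (Fin 6)} {z : ℂ}

theorem pt_near {z : ℂ} (u : ℝ) : ∀ᶠ v in 𝓝[≠] u, pt z v ≠ pt z u := by
  have h1 : ∀ᶠ v in 𝓝 u, |v - u| < 6 := by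
    have : Tendsto (fun v : ℝ => |v - u|) (𝓝 u) (𝓝 |u - u|) := by
      exact ((continuous_id.sub continuous_const).abs).tendsto u
    rw [sub_self, abs_zero] at this
    exact this.eventually_lt_const (by norm_num)
  filter_upwards [mem_nhdsWithin_of_mem_nhds h1, self_mem_nhdsWithin] with v hv hne he
  have h2 : cis (v * (Real.pi / 3)) = cis (u * (Real.pi / 3)) := by
    unfold pt at he; exact add_left_cancel he
  unfold cis at h2
  obtain ⟨n, hn⟩ := Complex.exp_eq_exp_iff_exists_int.1 h2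
  have h3 := congrArg Complex.im hn
  simp at h3
  have hpi := Real.pi_pos
  have h4 : v - u = 6 * n := by
    have : v * (Real.pi / 3) = (u + 6 * n) * (Real.pi / 3) := by rw [h3]; ring
    have := mul_right_cancel₀ (by positivity : Real.pi / 3 ≠ 0) this
    linarith
  rw [h4] at hv
  rw [abs_lt] at hv
  have h5 : (n : ℝ) < 1 := by linarith [hv.2]
  have h6 : (-1 : ℝ) < n := by linarith [hv.1]
  have h7 : n < 1 := by exact_mod_cast h5
  have h8 : -1 < n := by exact_mod_cast h6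
  have h9 : n = 0 := by omega
  subst h9
  exact hne (by show v = u; push_cast at h4; linarith)

/-- points with three colours are isolated on the circle -/
theorem lf_of (h : Irr U T) (hl : LF3 U T) (hz : ∀ i, i ∈ T z) (u : ℝ) :
    ∀ᶠ v in 𝓝[≠] u, (T (pt z v)).ncard ≤ 2 := by
  obtain ⟨t, ht, hfin⟩ := hl (pt z u)
  have h1 : ∀ᶠ v in 𝓝[≠] u, pt z v ∈ t :=
    ((continuous_pt z).continuousAt.eventually ht).filter_mono nhdsWithin_le_nhds
  have hfin2 : (({y | y ∈ XX U ∧ 3 ≤ (T y).ncard} ∩ t) \ {pt z u}).Finite := hfin.subset sdiff_subset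
  have h2 : ∀ᶠ v in 𝓝 u, pt z v ∉ ({y | y ∈ XX U ∧ 3 ≤ (T y).ncard} ∩ t) \ {pt z u} := by
    have : (({y | y ∈ XX U ∧ 3 ≤ (T y).ncard} ∩ t) \ {pt z u})ᶜ ∈ 𝓝 (pt z u) :=
      hfin2.isClosed.isOpen_compl.mem_nhds (by simp)
    exact (continuous_pt z).continuousAt.eventually this
  filter_upwards [h1, h2.filter_mono nhdsWithin_le_nhds, pt_near (z := z) u] with v hv1 hv2 hv3
  by_contra hcon
  push Not at hcon
  refine hv2 ⟨⟨⟨?_, hcon⟩, hv1⟩, hv3⟩
  obtain ⟨i, hi⟩ := h.ne (pt z v)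
  exact h.mem_XX (dist_pt z v) hi (h.sub z (hz i))

/-- **The structure at a six-coloured point.** -/
theorem C6.of_lf (h : Irr U T) (hl : LF3 U T) (hz : ∀ i, i ∈ T z) (hct : ∀ i, Ct U z i)
    (hctn : Ctn U T z) : C6 U T z where
  irr := h
  pal := hz
  ct := hct
  lf := lf_of h hl hz
  hp := by
    intro c
    have hzX : z ∈ XX U := by
      obtain ⟨i, hi⟩ := h.ne (pt z 0)
      exact h.mem_XX (by rw [dist_comm]; exact dist_pt z 0) (hz i) (h.sub _ hi)
    obtain ⟨α, hα⟩ := h.half_plane_dir hzX hctn (hz c)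
    have hpi := Real.pi_pos
    refine ⟨α * (3 / Real.pi), fun θ hθ => ?_⟩
    have e : (θ - α * (3 / Real.pi)) * (Real.pi / 3) = θ * (Real.pi / 3) - α := by
      field_simp
    rw [e]
    refine hα _ ?_
    -- scaling of the angle
    have hg : Continuous fun p : ℝ × ℝ => (p.1, p.2 * (Real.pi / 3)) := by fun_prop
    have h1 : ((0 : ℝ), θ) ∈ closure (PoS T z c) := hθ
    have h2 := image_closure_subset_closure_image hg ⟨_, h1, rfl⟩
    refine closure_mono ?_ h2
    rintro _ ⟨p, hp, rfl⟩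
    exact hp

end Vale.Agent.P032.H892
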